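import Mathlib

/-!
Averages over the unit circle, and the elementary facts about them used for P123.
-/

noncomputable section

namespace Vale.Agent.P123

open Complex Metric Set MeasureTheory Filter Topology Real
open scoped ComplexConjugate

/-- Average over the unit circle. -/
def av {E : Type*} [NormedAddCommGroup E] [NormedSpace ℝ E] (f : ℂ → E) : E :=
  circleAverage f 0 1

variable {f g : ℂ → ℂ}

theorem norm_circlePoint (θ : ℝ) : ‖circleMap (0 : ℂ) 1 θ‖ = 1 := by
  rw [norm_circleMap_zero, abs_one]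

theorem circlePoint_mem (θ : ℝ) : circleMap (0 : ℂ) 1 θ ∈ sphere (0 : ℂ) 1 :=
  mem_sphere_zero_iff_norm.2 (norm_circlePoint θ)

theorem continuous_on_circlePoint {E : Type*} [TopologicalSpace E] {f : ℂ → E}
    (hf : ContinuousOn f (sphere (0 : ℂ) 1)) : Continuous fun θ => f (circleMap (0 : ℂ) 1 θ) :=
  hf.comp_continuous (continuous_circleMap 0 1) circlePoint_mem

theorem integrable_av {E : Type*} [NormedAddCommGroup E] [NormedSpace ℝ E] {f : ℂ → E}
    (hf : ContinuousOn f (sphere (0 : ℂ) 1)) : CircleIntegrable f 0 1 :=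
  ((continuous_on_circlePoint hf).intervalIntegrable _ _)

theorem av_congr {E : Type*} [NormedAddCommGroup E] [NormedSpace ℝ E] {f g : ℂ → E}
    (h : ∀ u : ℂ, ‖u‖ = 1 → f u = g u) : av f = av g :=
  circleAverage_congr_sphere fun u hu => h u (by simpa using hu)

theorem av_add {E : Type*} [NormedAddCommGroup E] [NormedSpace ℝ E] {f g : ℂ → E}
    (hf : ContinuousOn f (sphere (0 : ℂ) 1)) (hg : ContinuousOn g (sphere (0 : ℂ) 1)) :
    av (fun u => f u + g u) = av f + av g :=
  circleAverage_fun_add (integrable_av hf) (integrable_av hg)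

theorem av_sub {E : Type*} [NormedAddCommGroup E] [NormedSpace ℝ E] {f g : ℂ → E}
    (hf : ContinuousOn f (sphere (0 : ℂ) 1)) (hg : ContinuousOn g (sphere (0 : ℂ) 1)) :
    av (fun u => f u - g u) = av f - av g :=
  circleAverage_fun_sub (integrable_av hf) (integrable_av hg)

theorem av_const {E : Type*} [NormedAddCommGroup E] [NormedSpace ℝ E] [CompleteSpace E] (a : E) :
    av (fun _ => a) = a :=
  circleAverage_const a 0 1

theorem av_const_mul (a : ℂ) (f : ℂ → ℂ) : av (fun u => a * f u) = a * av f := by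
  simpa [av, smul_eq_mul] using circleAverage_fun_smul (a := a) (f := f) (c := 0) (R := 1)

theorem av_const_mul_real (a : ℝ) (f : ℂ → ℝ) : av (fun u => a * f u) = a * av f := by
  simpa [av, smul_eq_mul] using circleAverage_fun_smul (a := a) (f := f) (c := 0) (R := 1)

theorem av_mul_const (a : ℂ) (f : ℂ → ℂ) : av (fun u => f u * a) = av f * a := by
  simp_rw [mul_comm _ a]; exact av_const_mul a f

theorem av_re {f : ℂ → ℂ} (hf : ContinuousOn f (sphere (0 : ℂ) 1)) :
    av (fun u => (f u).re) = (av f).re :=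
  Complex.reCLM.circleAverage_comp_comm (integrable_av hf)

theorem av_conj {f : ℂ → ℂ} (hf : ContinuousOn f (sphere (0 : ℂ) 1)) :
    av (fun u => conj (f u)) = conj (av f) :=
  (Complex.conjCLE : ℂ →L[ℝ] ℂ).circleAverage_comp_comm (integrable_av hf)

theorem av_ofReal {f : ℂ → ℝ} (hf : ContinuousOn f (sphere (0 : ℂ) 1)) :
    av (fun u => (f u : ℂ)) = ((av f : ℝ) : ℂ) :=
  Complex.ofRealCLM.circleAverage_comp_comm (integrable_av hf)

theorem av_mono {f g : ℂ → ℝ} (hf : ContinuousOn f (sphere (0 : ℂ) 1))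
    (hg : ContinuousOn g (sphere (0 : ℂ) 1)) (h : ∀ u : ℂ, ‖u‖ = 1 → f u ≤ g u) : av f ≤ av g :=
  circleAverage_mono (integrable_av hf) (integrable_av hg) fun u hu => h u (by simpa using hu)

theorem norm_av_le {f : ℂ → ℂ} (hf : ContinuousOn f (sphere (0 : ℂ) 1)) :
    ‖av f‖ ≤ av (fun u => ‖f u‖) := by
  unfold av circleAverage
  rw [norm_smul, Real.norm_of_nonneg (inv_nonneg.2 Real.two_pi_pos.le), smul_eq_mul]
  exact mul_le_mul_of_nonneg_left (intervalIntegral.norm_integral_le_integral_norm
    Real.two_pi_pos.le) (inv_nonneg.2 Real.two_pi_pos.le)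

/-- The mean value property. -/
theorem av_holo {f : ℂ → ℂ} {s : Set ℂ} (hs : s.Countable)
    (hc : ContinuousOn f (closedBall (0 : ℂ) 1))
    (hd : ∀ z ∈ ball (0 : ℂ) 1 \ s, DifferentiableAt ℂ f z) : av f = f 0 :=
  circleAverage_of_differentiable_on_off_countable hs (by simpa using hc) (by simpa using hd)

/-- The Cauchy formula, written as an average. -/
theorem av_cauchy {f : ℂ → ℂ} (hc : ContinuousOn f (closedBall (0 : ℂ) 1))
    (hd : ∀ z ∈ ball (0 : ℂ) 1, DifferentiableAt ℂ f z) {a : ℂ} (ha : ‖a‖ < 1) :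
    av (fun u => u / (u - a) * f u) = f a := by
  have := circleAverage_sub_sub_inv_smul_of_differentiable_on_off_countable (f := f) (c := 0)
    (R := 1) (w := a) countable_empty (by simpa using hc) (by simpa using hd) (by simpa using ha)
  simpa [av, smul_eq_mul] using this

/-- An average of a derivative along the circle vanishes. -/
theorem av_deriv_eq_zero {H : ℝ → ℂ} {g : ℂ → ℂ} (hg : ContinuousOn g (sphere (0 : ℂ) 1))
    (hH : ∀ θ : ℝ, HasDerivAt H (g (circleMap 0 1 θ)) θ) (hper : H (2 * π) = H 0) : av g = 0 := by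
  unfold av circleAverage
  rw [intervalIntegral.integral_eq_sub_of_hasDerivAt (fun θ _ => hH θ) (integrable_av hg), hper,
    sub_self, smul_zero]

/-- Continuous dependence of averages on a parameter. -/
theorem continuous_av {X : Type*} [TopologicalSpace X] {E : Type*} [NormedAddCommGroup E]
    [NormedSpace ℝ E] {F : X → ℂ → E}
    (hF : Continuous fun p : X × ℝ => F p.1 (circleMap (0 : ℂ) 1 p.2)) :
    Continuous fun x => av (F x) := by
  unfold av circleAverage
  exact (intervalIntegral.continuous_parametric_intervalIntegral_of_continuous'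
    (f := fun x θ => F x (circleMap (0 : ℂ) 1 θ)) hF _ _).const_smul _

theorem continuousOn_av {s : Set ℂ} {E : Type*} [NormedAddCommGroup E]
    [NormedSpace ℝ E] {F : ℂ → ℂ → E}
    (hF : ContinuousOn (Function.uncurry F) (s ×ˢ sphere (0 : ℂ) 1)) :
    ContinuousOn (fun x => av (F x)) s := by
  rw [continuousOn_iff_continuous_domRestrict]
  refine continuous_av (F := fun x : s => F x) ?_
  exact hF.comp_continuous (f := fun p : s × ℝ => ((p.1 : ℂ), circleMap (0 : ℂ) 1 p.2))
    (by fun_prop) fun p => ⟨p.1.2, circlePoint_mem p.2⟩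

/-- Exchange of two averages. -/
theorem av_swap {E : Type*} [NormedAddCommGroup E] [NormedSpace ℝ E] {F : ℂ → ℂ → E}
    (hF : ContinuousOn (Function.uncurry F) (sphere (0 : ℂ) 1 ×ˢ sphere (0 : ℂ) 1)) :
    av (fun x => av (F x)) = av (fun y => av fun x => F x y) := by
  unfold av circleAverage
  simp only [intervalIntegral.integral_smul]
  congr 2
  have h : Continuous fun p : ℝ × ℝ => F (circleMap (0 : ℂ) 1 p.1) (circleMap (0 : ℂ) 1 p.2) :=
    hF.comp_continuous (f := fun p : ℝ × ℝ => (circleMap (0 : ℂ) 1 p.1, circleMap (0 : ℂ) 1 p.2))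
      (by fun_prop) fun p => ⟨circlePoint_mem _, circlePoint_mem _⟩
  simp only [intervalIntegral.integral_of_le Real.two_pi_pos.le]
  refine integral_integral_swap ?_
  rw [Measure.prod_restrict]
  exact (h.continuousOn.integrableOn_compact (isCompact_Icc.prod isCompact_Icc)).mono_set
    (Set.prod_mono Ioc_subset_Icc_self Ioc_subset_Icc_self)

end Vale.Agent.P123
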