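import Vale.Agent.P123.Defs

/-!
The inequality `C ≤ 2 B` for a singular pair of `f(A)` and a convex curve around the numerical
range of `A`.
-/

noncomputable section

namespace Vale.Agent.P123

open Complex Metric Set MeasureTheory Filter Topology
open scoped ComplexConjugate InnerProductSpace

variable {E : Type*} [NormedAddCommGroup E] [InnerProductSpace ℂ E] [FiniteDimensional ℂ E]

namespace Core

variable (m : Model) (A : E →L[ℂ] E)

/-- `v (psi v - A)`. -/
def pencil (v : ℂ) : E →L[ℂ] E := m.c • 1 + v • (m.phi v • 1 - A)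

/-- `ζ Φ'(ζ) (Φ(ζ) - A)⁻¹` in the coordinate `v = 1/ζ`. -/
def op (v : ℂ) : E →L[ℂ] E := (m.c - v ^ 2 * deriv m.phi v) • Ring.inverse (pencil m A v)

variable {m A}

theorem pencil_apply (v : ℂ) (x : E) :
    pencil m A v x = m.c • x + v • (m.phi v • x - A x) := by
  simp [pencil]

theorem isUnit_pencil (h : Surrounds m A) {v : ℂ} (hv : ‖v‖ ≤ 1) : IsUnit (pencil m A v) := by
  have hinj : Function.Injective (pencil m A v) := by
    refine (injective_iff_map_eq_zero _).2 fun x hx => ?_
    by_contra hx0
    set e : E := (‖x‖⁻¹ : ℂ) • x with he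
    have hn : ‖e‖ = 1 := by
      simp [he, norm_smul, norm_ne_zero_iff.2 hx0]
    have h0 : pencil m A v e = 0 := by simp [he, hx]
    have h1 := congrArg (fun z => ⟪e, z⟫_ℂ) h0
    simp only [pencil_apply, inner_add_right, inner_smul_right, inner_sub_right, inner_zero_right,
      inner_self_eq_norm_sq_to_K, hn] at h1
    simp at h1
    by_cases hv0 : v = 0
    · simp [hv0, m.c_ne] at h1
    · refine h.ne e hn v hv hv0 ?_
      unfold Model.psi
      field_simp
      linear_combination h1
  rw [ContinuousLinearMap.isUnit_iff_bijective]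
  exact ⟨hinj, LinearMap.surjective_of_injective (f := (pencil m A v : E →ₗ[ℂ] E)) hinj⟩

theorem commute_op (h : Surrounds m A) {v : ℂ} (hv : ‖v‖ ≤ 1) : Commute (op m A v) A := by
  obtain ⟨T, hT⟩ := isUnit_pencil h hv
  have hc : Commute (pencil m A v) A := by
    unfold pencil
    exact ((Commute.one_left A).smul_left _).add_left
      ((((Commute.one_left A).smul_left _).sub_left (Commute.refl A)).smul_left _)
  rw [← hT] at hc
  unfold op
  rw [← hT, Ring.inverse_unit]
  exact (hc.units_inv_left).smul_left _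

theorem op_comm_apply (h : Surrounds m A) {v : ℂ} (hv : ‖v‖ ≤ 1) (x : E) :
    op m A v (A x) = A (op m A v x) :=
  congrArg (fun T : E →L[ℂ] E => T x) (commute_op h hv).eq

theorem pencil_op (h : Surrounds m A) {v : ℂ} (hv : ‖v‖ ≤ 1) (x : E) :
    pencil m A v (op m A v x) = (m.c - v ^ 2 * deriv m.phi v) • x := by
  have h1 := congrArg (fun T : E →L[ℂ] E => T x)
    (Ring.mul_inverse_cancel _ (isUnit_pencil h hv))
  simp only [ContinuousLinearMap.mul_apply, ContinuousLinearMap.one_apply] at h1
  simp [op, h1]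

theorem op_zero (h : Surrounds m A) (x : E) : op m A 0 x = x := by
  have h1 := pencil_op h (v := 0) (by simp) x
  simp [pencil_apply] at h1
  exact smul_right_injective E m.c_ne h1

theorem apply_op (h : Surrounds m A) {v : ℂ} (hv : ‖v‖ ≤ 1) (hv0 : v ≠ 0) (x : E) :
    A (op m A v x) = m.psi v • op m A v x - m.nrm v • x := by
  have h1 := pencil_op h hv x
  rw [pencil_apply] at h1
  apply smul_right_injective E hv0
  unfold Model.psi Model.nrm
  simp only [smul_sub, smul_smul] at h1 ⊢
  have e1 : v * (m.c / v + m.phi v) = m.c + v * m.phi v := by field_simp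
  have e2 : v * (m.c / v - v * deriv m.phi v) = m.c - v ^ 2 * deriv m.phi v := by field_simp
  rw [e1, e2, ← h1, add_smul]
  abel

theorem resolvent_eq (h : Surrounds m A) {v u : ℂ} (hv : ‖v‖ ≤ 1) (hv0 : v ≠ 0) (hu : ‖u‖ ≤ 1)
    (hu0 : u ≠ 0) (x : E) :
    (m.psi v - m.psi u) • op m A v (op m A u x) =
      m.nrm v • op m A u x - m.nrm u • op m A v x := by
  have h1 := apply_op h hv hv0 (op m A u x)
  rw [← op_comm_apply h hv, apply_op h hu hu0, map_sub, map_smul, map_smul] at h1
  linear_combination (norm := module) -h1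

theorem differentiableAt_op (h : Surrounds m A) {v : ℂ} (hv : ‖v‖ ≤ 1) :
    DifferentiableAt ℂ (op m A) v := by
  have hphi := (m.hasDerivAt_phi (m.mem_ball_of_le hv)).differentiableAt
  have hphi' := (m.hasDerivAt_deriv_phi (m.mem_ball_of_le hv)).differentiableAt
  have hp : DifferentiableAt ℂ (pencil m A) v := by
    unfold pencil
    exact ((differentiableAt_const _).fun_add
      (differentiableAt_id.smul ((hphi.smul_const _).fun_sub (differentiableAt_const _))))
  unfold op
  have h1 : DifferentiableAt ℂ (fun v => m.c - v ^ 2 * deriv m.phi v) v := by fun_prop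
  exact h1.smul ((differentiableAt_inverse (isUnit_pencil h hv)).comp v hp)

/-- The matrix coefficient of `op`. -/
def coef (m : Model) (A : E →L[ℂ] E) (w x : E) (v : ℂ) : ℂ := ⟪w, op m A v x⟫_ℂ

theorem differentiableAt_coef (h : Surrounds m A) (w x : E) {v : ℂ} (hv : ‖v‖ ≤ 1) :
    DifferentiableAt ℂ (coef m A w x) v :=
  ((innerSL ℂ w).comp (ContinuousLinearMap.apply ℂ E x)).differentiableAt.comp v
    (differentiableAt_op h hv)

theorem continuousOn_coef (h : Surrounds m A) (w x : E) :
    ContinuousOn (coef m A w x) (closedBall (0 : ℂ) 1) := fun _ hv =>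
  (differentiableAt_coef h w x (mem_closedBall_zero_iff.1 hv)).continuousAt.continuousWithinAt

theorem coef_zero (h : Surrounds m A) (w x : E) : coef m A w x 0 = ⟪w, x⟫_ℂ := by
  simp [coef, op_zero h]

theorem av_coef (h : Surrounds m A) (w x : E) : av (coef m A w x) = ⟪w, x⟫_ℂ := by
  rw [av_holo countable_empty (continuousOn_coef h w x) fun z hz =>
    differentiableAt_coef h w x (mem_ball_zero_iff.1 hz.1).le, coef_zero h]

theorem continuousOn_psi : ContinuousOn m.psi (sphere (0 : ℂ) 1) := by
  refine ContinuousOn.fun_add (continuousOn_const.div continuousOn_id fun u hu => ?_) ?_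
  · rintro rfl; simp at hu
  · exact m.phi_diff.continuousOn.mono fun u hu =>
      m.mem_ball_of_le (mem_sphere_zero_iff_norm.1 hu).le

theorem continuousOn_nrm : ContinuousOn m.nrm (sphere (0 : ℂ) 1) := by
  refine ContinuousOn.fun_sub (continuousOn_const.div continuousOn_id fun u hu => ?_) ?_
  · rintro rfl; simp at hu
  · exact continuousOn_id.fun_mul (m.deriv_phi_diff.continuousOn.mono fun u hu =>
      m.mem_ball_of_le (mem_sphere_zero_iff_norm.1 hu).le)

theorem hasDerivAt_psi_circle (θ : ℝ) :
    HasDerivAt (fun t : ℝ => m.psi (circleMap 0 1 t))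
      (-(I * m.nrm (circleMap 0 1 θ))) θ := by
  have h0 : circleMap (0 : ℂ) 1 θ ≠ 0 := by
    intro hh; simpa [hh] using norm_circlePoint θ
  have h1 : HasDerivAt m.psi (-(m.c) / circleMap 0 1 θ ^ 2 + deriv m.phi (circleMap 0 1 θ))
      (circleMap 0 1 θ) := by
    unfold Model.psi
    refine HasDerivAt.fun_add ?_ (m.hasDerivAt_phi (m.mem_ball_of_le (norm_circlePoint θ).le))
    exact ((hasDerivAt_const _ m.c).div (hasDerivAt_id' _) h0).congr_deriv (by ring)
  have h2 := h1.comp θ (hasDerivAt_circleMap 0 1 θ)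
  refine h2.congr_deriv ?_
  unfold Model.nrm
  field_simp
  ring

theorem av_pow_mul_nrm (n : ℕ) : av (fun u => m.psi u ^ n * m.nrm u) = 0 := by
  refine av_deriv_eq_zero ((continuousOn_psi.fun_pow n).fun_mul continuousOn_nrm)
    (H := fun θ => I / (n + 1) * m.psi (circleMap 0 1 θ) ^ (n + 1)) (fun θ => ?_) ?_
  · have hn : (n : ℂ) + 1 ≠ 0 := Nat.cast_add_one_ne_zero n
    have := ((hasDerivAt_psi_circle (m := m) θ).fun_pow (n + 1)).const_mul (I / ((n : ℂ) + 1))
    convert this using 1
    · rfl
    · simp only [Nat.cast_add, Nat.cast_one, Nat.add_sub_cancel]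
      field_simp
      linear_combination (m.psi (circleMap 0 1 θ) ^ n * m.nrm (circleMap 0 1 θ)) * I_sq
  · simp [circleMap]

theorem av_eval_mul_nrm (P : Polynomial ℂ) : av (fun u => P.eval (m.psi u) * m.nrm u) = 0 := by
  induction P using Polynomial.induction_on' with
  | add p q hp hq =>
    simp only [Polynomial.eval_add, add_mul]
    rw [av_add ((p.continuous.comp_continuousOn' continuousOn_psi).fun_mul continuousOn_nrm)
      ((q.continuous.comp_continuousOn' continuousOn_psi).fun_mul continuousOn_nrm), hp, hq, add_zero]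
  | monomial n a =>
    simp only [Polynomial.eval_monomial, mul_assoc]
    rw [av_const_mul, av_pow_mul_nrm, mul_zero]

theorem av_eval_div (h : Surrounds m A) (P : Polynomial ℂ) {v : ℂ} (hv : ‖v‖ < 1) (hv0 : v ≠ 0) :
    av (fun u => P.eval (m.psi u) * (m.nrm u / (m.psi v - m.psi u))) = 0 := by
  obtain ⟨d, hd⟩ := h.sep v hv hv0
  have hne : ∀ u : ℂ, ‖u‖ = 1 → m.psi v - m.psi u ≠ 0 := fun u hu hh => by
    simpa [hh] using hd u hu
  have hd0 : d ≠ 0 := by rintro rfl; simpa using hd 1 (by simp)
  have hcont : ContinuousOn (fun u => m.nrm u / (m.psi v - m.psi u)) (sphere (0 : ℂ) 1) :=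
    continuousOn_nrm.div (continuousOn_const.fun_sub continuousOn_psi)
      fun u hu => hne u (mem_sphere_zero_iff_norm.1 hu)
  have hlog : av (fun u => m.nrm u / (m.psi v - m.psi u)) = 0 := by
    refine av_deriv_eq_zero hcont
      (H := fun θ => -I * Complex.log (d * (m.psi v - m.psi (circleMap 0 1 θ)))) (fun θ => ?_) ?_
    · have h1 := (((hasDerivAt_psi_circle (m := m) θ).const_sub (m.psi v)).const_mul d).clog_real
        (mem_slitPlane_iff.2 (Or.inl (hd _ (norm_circlePoint θ))))
      convert h1.const_mul (-I) using 1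
      · rfl
      · field_simp [hne _ (norm_circlePoint θ)]
        linear_combination (m.nrm (circleMap 0 1 θ)) * I_sq
    · simp [circleMap]
  set Q := P.divByMonic (Polynomial.X - Polynomial.C (m.psi v))
  have hP : ∀ z, P.eval z = P.eval (m.psi v) + (z - m.psi v) * Q.eval z := fun z => by
    have := congrArg (Polynomial.eval z) (Polynomial.modByMonic_add_div P
      (Polynomial.X - Polynomial.C (m.psi v)))
    rw [Polynomial.modByMonic_X_sub_C_eq_C_eval] at this
    simpa [Q] using this.symm
  rw [av_congr (g := fun u => P.eval (m.psi v) * (m.nrm u / (m.psi v - m.psi u))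
    - Q.eval (m.psi u) * m.nrm u) fun u hu => ?_, av_sub (continuousOn_const.fun_mul hcont)
    ((Q.continuous.comp_continuousOn' continuousOn_psi).fun_mul continuousOn_nrm), av_const_mul, hlog,
    av_eval_mul_nrm, mul_zero, sub_zero]
  rw [hP (m.psi u)]
  field_simp [hne u hu]
  ring

theorem av_pow_mul_coef (h : Surrounds m A) (n : ℕ) (w x : E) :
    av (fun u => m.psi u ^ n * coef m A w x u) = ⟪w, (A ^ n) x⟫_ℂ := by
  induction n generalizing x with
  | zero => simpa using av_coef h w x
  | succ n ih =>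
    have hc := (continuousOn_coef h w (A x)).mono sphere_subset_closedBall
    rw [av_congr (g := fun u => m.psi u ^ n * coef m A w (A x) u
      + ⟪w, x⟫_ℂ * (m.psi u ^ n * m.nrm u)) fun u hu => ?_,
      av_add ((continuousOn_psi.fun_pow n).fun_mul hc)
        (continuousOn_const.fun_mul ((continuousOn_psi.fun_pow n).fun_mul continuousOn_nrm)),
      ih, av_const_mul, av_pow_mul_nrm, mul_zero, add_zero, pow_succ]
    · rfl
    · have hu0 : u ≠ 0 := by rintro rfl; simp at hu
      unfold coef
      rw [op_comm_apply h hu.le, apply_op h hu.le hu0, inner_sub_right, inner_smul_right,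
        inner_smul_right]
      ring

theorem av_eval_mul_coef (h : Surrounds m A) (P : Polynomial ℂ) (w x : E) :
    av (fun u => P.eval (m.psi u) * coef m A w x u) = ⟪w, Polynomial.aeval A P x⟫_ℂ := by
  have hc := (continuousOn_coef h w x).mono sphere_subset_closedBall
  induction P using Polynomial.induction_on' with
  | add p q hp hq =>
    simp only [Polynomial.eval_add, add_mul, map_add, ContinuousLinearMap.add_apply,
      inner_add_right]
    rw [av_add ((p.continuous.comp_continuousOn' continuousOn_psi).fun_mul hc)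
      ((q.continuous.comp_continuousOn' continuousOn_psi).fun_mul hc), hp, hq]
  | monomial n a =>
    simp only [Polynomial.eval_monomial, mul_assoc]
    rw [av_const_mul, av_pow_mul_coef h, Polynomial.aeval_monomial, ← Algebra.smul_def,
      ContinuousLinearMap.smul_apply, inner_smul_right]

theorem re_coef_nonneg (h : Surrounds m A) (z : E) {v : ℂ} (hv : ‖v‖ = 1) :
    0 ≤ (coef m A z z v).re := by
  have hv0 : v ≠ 0 := by rintro rfl; simp at hv
  set w := op m A v z with hw
  by_cases hn : m.nrm v = 0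
  · have h0 : m.c - v ^ 2 * deriv m.phi v = v * m.nrm v := by
      unfold Model.nrm; field_simp
    simp [coef, op, h0, hn]
  by_cases hw0 : w = 0
  · simp [coef, ← hw, hw0]
  have hz : m.nrm v • z = m.psi v • w - A w := by rw [apply_op h hv.le hv0]; abel
  have h1 := congrArg (fun t => ⟪w, t⟫_ℂ) hz
  simp only [inner_smul_right, inner_sub_right, inner_self_eq_norm_sq_to_K] at h1
  have hunit : ‖(‖w‖⁻¹ : ℂ) • w‖ = 1 := by simp [norm_smul, norm_ne_zero_iff.2 hw0]
  have h2 := h.pos _ hunit v hv
  rw [map_smul, inner_smul_left, inner_smul_right] at h2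
  have e : m.psi v - conj ((‖w‖ : ℂ)⁻¹) * ((‖w‖ : ℂ)⁻¹ * ⟪w, A w⟫_ℂ) =
      ((‖w‖ ^ 2)⁻¹ : ℝ) * (m.nrm v * ⟪w, z⟫_ℂ) := by
    rw [h1]
    have : (‖w‖ : ℂ) ≠ 0 := by exact_mod_cast norm_ne_zero_iff.2 hw0
    simp only [map_inv₀, conj_ofReal, Complex.coe_algebraMap, ofReal_inv, ofReal_pow]
    field_simp
  rw [e, show ((((‖w‖ ^ 2)⁻¹ : ℝ) : ℂ) * (m.nrm v * ⟪w, z⟫_ℂ)) * conj (m.nrm v) =
    ((((‖w‖ ^ 2)⁻¹ * normSq (m.nrm v)) : ℝ) : ℂ) * ⟪w, z⟫_ℂ by
      rw [ofReal_mul, ← mul_conj]; ring, re_ofReal_mul] at h2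
  have h3 : 0 ≤ (⟪w, z⟫_ℂ).re :=
    (mul_nonneg_iff_of_pos_left (mul_pos (inv_pos.2 (pow_pos (norm_pos_iff.2 hw0) 2))
      (normSq_pos.2 hn))).1 h2
  rw [coef, ← inner_conj_symm, conj_re]
  exact h3

theorem two_coef_le (h : Surrounds m A) (x y : E) {v : ℂ} (hv : ‖v‖ = 1)
    (hxy : coef m A y y v = coef m A x x v) :
    ‖coef m A y x v + conj (coef m A x y v)‖ ≤ 2 * (coef m A x x v).re := by
  set r := coef m A y x v + conj (coef m A x y v) with hr
  by_cases hr0 : r = 0
  · rw [hr0, norm_zero]; linarith [re_coef_nonneg h x hv]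
  set l : ℂ := -(r / (‖r‖ : ℂ)) with hl
  have hl1 : ‖l‖ = 1 := by simp [hl, norm_ne_zero_iff.2 hr0]
  have h1 := re_coef_nonneg h (x + l • y) hv
  have e : coef m A (x + l • y) (x + l • y) v = coef m A x x v + l * coef m A x y v
      + conj l * coef m A y x v + conj l * l * coef m A y y v := by
    simp only [coef, map_add, map_smul, inner_add_left, inner_add_right, inner_smul_left,
      inner_smul_right]
    ring
  have hll : conj l * l = 1 := by
    rw [← normSq_eq_conj_mul_self, ← Complex.sq_norm, hl1]; simp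
  rw [e, hll, one_mul, hxy] at h1
  have h2 : (l * coef m A x y v).re + (conj l * coef m A y x v).re = (conj l * r).re := by
    rw [hr, mul_add, add_re, add_comm, ← conj_re (l * coef m A x y v), map_mul]
  have h3 : conj l * r = -(‖r‖ : ℂ) := by
    have hne : (‖r‖ : ℂ) ≠ 0 := by exact_mod_cast norm_ne_zero_iff.2 hr0
    simp only [hl, map_neg, map_div₀, conj_ofReal, neg_mul, div_mul_eq_mul_div, conj_mul']
    field_simp
  rw [h3, neg_re, ofReal_re] at h2
  simp only [add_re] at h1
  linarith

/-- A weighted Cauchy-Schwarz inequality for a probability weight. -/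
theorem normSq_av_le {k : ℂ → ℝ} {g : ℂ → ℂ} (hk : ContinuousOn k (sphere (0 : ℂ) 1))
    (hg : ContinuousOn g (sphere (0 : ℂ) 1)) (hk0 : ∀ u : ℂ, ‖u‖ = 1 → 0 ≤ k u)
    (hk1 : av k = 1) :
    normSq (av fun u => (k u : ℂ) * g u) ≤ av (fun u => k u * normSq (g u)) := by
  set a := av fun u => (k u : ℂ) * g u with ha
  have hkC : ContinuousOn (fun u => (k u : ℂ)) (sphere (0 : ℂ) 1) :=
    continuous_ofReal.comp_continuousOn' hk
  have c1 : ContinuousOn (fun u => k u * normSq (g u)) (sphere (0 : ℂ) 1) :=
    hk.fun_mul (continuous_normSq.comp_continuousOn' hg)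
  have c2 : ContinuousOn (fun u => conj a * ((k u : ℂ) * g u)) (sphere (0 : ℂ) 1) :=
    continuousOn_const.fun_mul (hkC.fun_mul hg)
  have c2' : ContinuousOn (fun u => (conj a * ((k u : ℂ) * g u)).re) (sphere (0 : ℂ) 1) :=
    continuous_re.comp_continuousOn' c2
  have h := av_mono (f := fun _ => (0 : ℝ)) (g := fun u => k u * normSq (g u)
      - 2 * (conj a * ((k u : ℂ) * g u)).re + normSq a * k u) continuousOn_const
    ((c1.fun_sub (continuousOn_const.fun_mul c2')).fun_add (continuousOn_const.fun_mul hk))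
    fun u hu => by
      have : 0 ≤ k u * normSq (g u - a) := mul_nonneg (hk0 u hu) (normSq_nonneg _)
      rw [normSq_sub] at this
      simp only [mul_re, mul_im, conj_re, conj_im, ofReal_re, ofReal_im] at this ⊢
      nlinarith
  rw [av_const, av_add (c1.fun_sub (continuousOn_const.fun_mul c2')) (continuousOn_const.fun_mul hk),
    av_sub c1 (continuousOn_const.fun_mul c2'), av_const_mul_real, av_const_mul_real, hk1,
    av_re c2, av_const_mul, ← ha, ← normSq_eq_conj_mul_self, ofReal_re] at h
  linarith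

variable (m A) in
/-- The test function `conj ((1 + α) / 2)` before conjugation. -/
def tst (x : E) (v : ℂ) : ℂ := (1 + coef m A x x v) / 2

theorem continuousOn_tst (h : Surrounds m A) (x : E) :
    ContinuousOn (tst m A x) (closedBall (0 : ℂ) 1) :=
  (continuousOn_const.fun_add (continuousOn_coef h x x)).div_const 2

theorem differentiableAt_tst (h : Surrounds m A) (x : E) {v : ℂ} (hv : ‖v‖ ≤ 1) :
    DifferentiableAt ℂ (tst m A x) v :=
  ((differentiableAt_const _).fun_add (differentiableAt_coef h x x hv)).div_const 2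

variable (m A) in
/-- Boundary values of the analytic function built from the test function. -/
def bdry (x : E) (r : ℝ) (u : ℂ) : ℂ :=
  conj (tst m A x ((r : ℂ) ^ 2 * u)) +
    av (fun w => m.G ((r : ℂ) * w) u * conj (tst m A x ((r : ℂ) * w)))

theorem norm_scaled_le {r : ℝ} (hr : r ∈ Icc (0 : ℝ) 1) {w : ℂ} (hw : ‖w‖ = 1) :
    ‖(r : ℂ) * w‖ ≤ 1 := by simp [hw, abs_of_nonneg hr.1, hr.2]

theorem norm_scaled_sq_le {r : ℝ} (hr : r ∈ Icc (0 : ℝ) 1) {w : ℂ} (hw : ‖w‖ = 1) :
    ‖(r : ℂ) ^ 2 * w‖ ≤ 1 := by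
  simp [hw, abs_of_nonneg hr.1, hr.2]

theorem continuous_bdry (h : Surrounds m A) (x : E) :
    Continuous fun q : Icc (0 : ℝ) 1 × sphere (0 : ℂ) 1 => bdry m A x q.1 q.2 := by
  have ht := continuousOn_tst h x
  refine Continuous.fun_add (continuous_conj.comp (ht.comp_continuous (by fun_prop) fun q =>
    mem_closedBall_zero_iff.2 (norm_scaled_sq_le q.1.2 (mem_sphere_zero_iff_norm.1 q.2.2)))) ?_
  refine continuous_av (F := fun (q : Icc (0 : ℝ) 1 × sphere (0 : ℂ) 1) w =>
    m.G (((q.1 : ℝ) : ℂ) * w) q.2 * conj (tst m A x (((q.1 : ℝ) : ℂ) * w))) ?_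
  refine Continuous.fun_mul ?_ (continuous_conj.comp (ht.comp_continuous (by fun_prop) fun p =>
    mem_closedBall_zero_iff.2 (norm_scaled_le p.1.1.2 (norm_circlePoint _))))
  exact m.continuousOn_G.comp_continuous (f := fun p : (Icc (0 : ℝ) 1 × sphere (0 : ℂ) 1) × ℝ =>
    ((((p.1.1 : ℝ) : ℂ) * circleMap 0 1 p.2), (p.1.2 : ℂ))) (by fun_prop) fun p =>
      ⟨norm_scaled_le p.1.1.2 (norm_circlePoint _), (mem_sphere_zero_iff_norm.1 p.1.2.2).le,
        Or.inr (mem_sphere_zero_iff_norm.1 p.1.2.2)⟩

theorem continuousOn_bdry (h : Surrounds m A) (x : E) {r : ℝ} (hr : r ∈ Icc (0 : ℝ) 1) :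
    ContinuousOn (bdry m A x r) (sphere (0 : ℂ) 1) := by
  rw [continuousOn_iff_continuous_domRestrict]
  have hemb : Continuous fun u : sphere (0 : ℂ) 1 => ((⟨r, hr⟩ : Icc (0 : ℝ) 1), u) :=
    continuous_const.prodMk continuous_id
  have := Continuous.comp (g := fun q : Icc (0 : ℝ) 1 × sphere (0 : ℂ) 1 => bdry m A x q.1 q.2)
    (continuous_bdry h x) hemb
  simpa only [Function.comp_def, Set.domRestrict_def] using this

variable {x y : E} {C B : ℝ} {P : Polynomial ℂ}

theorem hasScaled {r : ℝ} (hr0 : 0 < r) (hr1 : r < 1) {w u : ℂ} (hw : ‖w‖ = 1) (hu : ‖u‖ = 1) :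
    ‖(r : ℂ) * w‖ < 1 ∧ (r : ℂ) * w ≠ 0 ∧ u ≠ (r : ℂ) * w ∧ u ≠ 0 ∧
      ((r : ℂ) * w, u) ∈ Model.dom := by
  have h1 : ‖(r : ℂ) * w‖ < 1 := by simpa [hw, abs_of_pos hr0] using hr1
  have h2 : (r : ℂ) * w ≠ 0 := norm_ne_zero_iff.1 (by simpa [hw] using hr0.ne')
  refine ⟨h1, h2, ?_, norm_ne_zero_iff.1 (by simp [hu]), h1.le, hu.le, Or.inr hu⟩
  intro he
  rw [← he, hu] at h1
  exact lt_irrefl _ h1

theorem av_kernel_eval (h : Surrounds m A) (hfx : Polynomial.aeval A P x = (C : ℂ) • y)
    {v : ℂ} (hv : ‖v‖ < 1) (hv0 : v ≠ 0) :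
    av (fun u => (u / (u - v) + m.G v u) * (P.eval (m.psi u) * coef m A y x u)) =
      (C : ℂ) * coef m A y y v := by
  set w' := (op m A v).adjoint y with hw'
  have hcw : ∀ z, ⟪w', z⟫_ℂ = ⟪y, op m A v z⟫_ℂ := fun z => by
    rw [hw', ContinuousLinearMap.adjoint_inner_left]
  have facts : ∀ u : ℂ, ‖u‖ = 1 → (v, u) ∈ Model.dom ∧ u ≠ 0 ∧ u ≠ v := fun u hu =>
    ⟨⟨hv.le, hu.le, Or.inr hu⟩, norm_ne_zero_iff.1 (by simp [hu]), fun he => by
      rw [he] at hu; linarith⟩
  have hsub : ∀ u : ℂ, ‖u‖ = 1 → m.psi v - m.psi u ≠ 0 := fun u hu =>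
    sub_ne_zero.2 (m.psi_ne (facts u hu).1 hv0 (facts u hu).2.1 (facts u hu).2.2)
  have hc1 : ContinuousOn (fun u => P.eval (m.psi u) * coef m A w' x u) (sphere (0 : ℂ) 1) :=
    (P.continuous.comp_continuousOn' continuousOn_psi).fun_mul
      ((continuousOn_coef h w' x).mono sphere_subset_closedBall)
  have hc2 : ContinuousOn (fun u => P.eval (m.psi u) * (m.nrm u / (m.psi v - m.psi u)))
      (sphere (0 : ℂ) 1) :=
    (P.continuous.comp_continuousOn' continuousOn_psi).fun_mul (continuousOn_nrm.div
      (continuousOn_const.fun_sub continuousOn_psi) fun u hu =>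
        hsub u (mem_sphere_zero_iff_norm.1 hu))
  rw [av_congr (g := fun u => P.eval (m.psi u) * coef m A w' x u
    + coef m A y x v * (P.eval (m.psi u) * (m.nrm u / (m.psi v - m.psi u)))) fun u hu => ?_,
    av_add hc1 (continuousOn_const.fun_mul hc2), av_eval_mul_coef h, av_const_mul,
    av_eval_div h P hv hv0, mul_zero, add_zero, hcw, hfx, map_smul, inner_smul_right]
  · rfl
  · obtain ⟨hd, hu0, hne⟩ := facts u hu
    rw [← m.kernel_eq hd hv0 hu0 hne]
    have hres := congrArg (fun z => ⟪y, z⟫_ℂ) (resolvent_eq h hv.le hv0 hu.le hu0 x)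
    simp only [inner_smul_right, inner_sub_right] at hres
    simp only [coef, hcw]
    field_simp [hsub u hu]
    linear_combination (-(P.eval (m.psi u))) * hres

theorem av_conj_tst_kernel (h : Surrounds m A) (x : E) {r : ℝ} (hr0 : 0 < r) (hr1 : r < 1)
    {u : ℂ} (hu : ‖u‖ = 1) :
    av (fun w => conj (tst m A x ((r : ℂ) * w)) * (u / (u - (r : ℂ) * w) + m.G ((r : ℂ) * w) u))
      = bdry m A x r u := by
  have fw := fun w (hw : ‖w‖ = 1) => hasScaled hr0 hr1 hw hu
  have hle : ∀ z : ℂ, ‖z‖ ≤ 1 → ‖(r : ℂ) * z‖ ≤ 1 := fun z hz => by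
    simpa [abs_of_pos hr0] using mul_le_one₀ hr1.le (norm_nonneg _) hz
  set p := fun z : ℂ => tst m A x ((r : ℂ) * z) with hp
  have cp : ContinuousOn p (closedBall (0 : ℂ) 1) :=
    (continuousOn_tst h x).comp (by fun_prop) fun z hz =>
      mem_closedBall_zero_iff.2 (hle z (mem_closedBall_zero_iff.1 hz))
  have dp : ∀ z ∈ ball (0 : ℂ) 1, DifferentiableAt ℂ p z := fun z hz =>
    (differentiableAt_tst h x (hle z (mem_ball_zero_iff.1 hz).le)).comp z
      (differentiableAt_id.const_mul _)
  have ccp : ContinuousOn (fun w => conj (p w)) (sphere (0 : ℂ) 1) :=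
    continuous_conj.comp_continuousOn' (cp.mono sphere_subset_closedBall)
  have cG : ContinuousOn (fun w => m.G ((r : ℂ) * w) u) (sphere (0 : ℂ) 1) :=
    m.continuousOn_G.comp (f := fun w => ((r : ℂ) * w, u)) (by fun_prop)
      fun w hw => (fw w (mem_sphere_zero_iff_norm.1 hw)).2.2.2.2
  have c1 : ContinuousOn (fun w => u / (u - (r : ℂ) * w)) (sphere (0 : ℂ) 1) :=
    continuousOn_const.div (by fun_prop) fun w hw => sub_ne_zero.2
      (fw w (mem_sphere_zero_iff_norm.1 hw)).2.2.1
  rw [av_congr (g := fun w => conj (p w) * (u / (u - (r : ℂ) * w))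
    + conj (p w) * m.G ((r : ℂ) * w) u) fun w _ => mul_add _ _ _,
    av_add (ccp.fun_mul c1) (ccp.fun_mul cG)]
  unfold bdry
  congr 1
  · have cW : ContinuousOn (fun w => w / (w - (r : ℂ) * u) * p w) (sphere (0 : ℂ) 1) :=
      (continuousOn_id.div (by fun_prop) fun w hw => sub_ne_zero.2
        (hasScaled hr0 hr1 hu (mem_sphere_zero_iff_norm.1 hw)).2.2.1).fun_mul
          (cp.mono sphere_subset_closedBall)
    have hP := av_cauchy cp dp (a := (r : ℂ) * u) (hasScaled hr0 hr1 hu hu).1
    rw [show tst m A x ((r : ℂ) ^ 2 * u) = p ((r : ℂ) * u) by simp [hp, sq, mul_assoc],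
      ← hP, ← av_conj cW]
    refine av_congr fun w hw => ?_
    rw [map_mul, map_div₀, map_sub, map_mul, conj_ofReal]
    have hwc : conj w = w⁻¹ := (inv_eq_conj hw).symm
    have huc : conj u = u⁻¹ := (inv_eq_conj hu).symm
    rw [hwc, huc]
    obtain ⟨-, -, h3, h1, -⟩ := fw w hw
    have h2 : w ≠ 0 := norm_ne_zero_iff.1 (by simp [hw])
    have h3' := sub_ne_zero.2 h3
    field_simp
  · exact av_congr fun w _ => mul_comm _ _

theorem identity_lt (h : Surrounds m A) (hfx : Polynomial.aeval A P x = (C : ℂ) • y)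
    (hxy : ∀ v : ℂ, ‖v‖ ≤ 1 → coef m A y y v = coef m A x x v) {r : ℝ} (hr0 : 0 < r)
    (hr1 : r < 1) :
    (C : ℂ) * av (fun w => conj (tst m A x ((r : ℂ) * w)) * coef m A x x ((r : ℂ) * w)) =
      av (fun u => P.eval (m.psi u) * coef m A y x u * bdry m A x r u) := by
  have cfb : ContinuousOn (fun u => P.eval (m.psi u) * coef m A y x u) (sphere (0 : ℂ) 1) :=
    (P.continuous.comp_continuousOn' continuousOn_psi).fun_mul
      ((continuousOn_coef h y x).mono sphere_subset_closedBall)
  have ccp : ContinuousOn (fun w => conj (tst m A x ((r : ℂ) * w))) (sphere (0 : ℂ) 1) :=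
    continuous_conj.comp_continuousOn' ((continuousOn_tst h x).comp (by fun_prop) fun w hw =>
      mem_closedBall_zero_iff.2 (hasScaled hr0 hr1 (mem_sphere_zero_iff_norm.1 hw)
        (mem_sphere_zero_iff_norm.1 hw)).1.le)
  set S := sphere (0 : ℂ) 1 ×ˢ sphere (0 : ℂ) 1 with hS
  have fq := fun (q : ℂ × ℂ) (hq : q ∈ S) =>
    hasScaled hr0 hr1 (mem_sphere_zero_iff_norm.1 hq.1) (mem_sphere_zero_iff_norm.1 hq.2)
  have c1 : ContinuousOn (fun q : ℂ × ℂ => q.2 / (q.2 - (r : ℂ) * q.1)) S :=
    continuousOn_snd.div (by fun_prop) fun q hq => sub_ne_zero.2 (fq q hq).2.2.1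
  have c2 : ContinuousOn (fun q : ℂ × ℂ => m.G ((r : ℂ) * q.1) q.2) S :=
    m.continuousOn_G.comp (f := fun q : ℂ × ℂ => ((r : ℂ) * q.1, q.2)) (by fun_prop)
      fun q hq => (fq q hq).2.2.2.2
  have cF : ContinuousOn (Function.uncurry fun w u => conj (tst m A x ((r : ℂ) * w)) *
      ((u / (u - (r : ℂ) * w) + m.G ((r : ℂ) * w) u) *
        (P.eval (m.psi u) * coef m A y x u))) S :=
    (ccp.comp continuousOn_fst fun q hq => hq.1).fun_mul
      ((c1.fun_add c2).fun_mul (cfb.comp continuousOn_snd fun q hq => hq.2))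
  rw [← av_const_mul, av_congr (g := fun w => av fun u => conj (tst m A x ((r : ℂ) * w)) *
      ((u / (u - (r : ℂ) * w) + m.G ((r : ℂ) * w) u) *
        (P.eval (m.psi u) * coef m A y x u))) fun w hw => ?_, av_swap cF]
  · refine av_congr fun u hu => ?_
    rw [← av_conj_tst_kernel h x hr0 hr1 hu, ← av_const_mul]
    exact av_congr fun w _ => by ring
  · obtain ⟨h1, h2, -, -, -⟩ := hasScaled hr0 hr1 hw hw
    rw [av_const_mul, av_kernel_eval h hfx h1 h2, hxy _ h1.le]
    ring

theorem identity_one (h : Surrounds m A) (hfx : Polynomial.aeval A P x = (C : ℂ) • y)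
    (hxy : ∀ v : ℂ, ‖v‖ ≤ 1 → coef m A y y v = coef m A x x v) :
    (C : ℂ) * av (fun w => conj (tst m A x w) * coef m A x x w) =
      av (fun u => P.eval (m.psi u) * coef m A y x u * bdry m A x 1 u) := by
  set L := fun r : ℝ =>
    (C : ℂ) * av (fun w => conj (tst m A x ((r : ℂ) * w)) * coef m A x x ((r : ℂ) * w)) with hL
  set R := fun r : ℝ =>
    av (fun u => P.eval (m.psi u) * coef m A y x u * bdry m A x r u) with hR
  have hmem : ∀ p : Icc (0 : ℝ) 1 × ℝ,
      ((p.1 : ℝ) : ℂ) * circleMap 0 1 p.2 ∈ closedBall (0 : ℂ) 1 := fun p =>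
    mem_closedBall_zero_iff.2 (norm_scaled_le p.1.2 (norm_circlePoint _))
  have cL : ContinuousOn L (Icc (0 : ℝ) 1) := by
    rw [continuousOn_iff_continuous_domRestrict]
    refine continuous_const.fun_mul (continuous_av (F := fun (r : Icc (0 : ℝ) 1) w =>
      conj (tst m A x (((r : ℝ) : ℂ) * w)) * coef m A x x (((r : ℝ) : ℂ) * w)) ?_)
    exact (continuous_conj.comp ((continuousOn_tst h x).comp_continuous (by fun_prop) hmem)).fun_mul
      ((continuousOn_coef h x x).comp_continuous (by fun_prop) hmem)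
  have cR : ContinuousOn R (Icc (0 : ℝ) 1) := by
    rw [continuousOn_iff_continuous_domRestrict]
    refine continuous_av (F := fun (r : Icc (0 : ℝ) 1) u =>
      P.eval (m.psi u) * coef m A y x u * bdry m A x r u) ?_
    refine Continuous.fun_mul ?_ ((continuous_bdry h x).comp (f := fun p : Icc (0 : ℝ) 1 × ℝ =>
      (p.1, (⟨circleMap 0 1 p.2, circlePoint_mem p.2⟩ : sphere (0 : ℂ) 1))) (by fun_prop))
    exact ((P.continuous.comp_continuousOn' continuousOn_psi).fun_mul
      ((continuousOn_coef h y x).mono sphere_subset_closedBall)).comp_continuous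
        ((continuous_circleMap 0 1).comp continuous_snd) fun p => circlePoint_mem p.2
  have heq : EqOn L R (Icc (0 : ℝ) 1) :=
    EqOn.of_subset_closure (fun r hr => identity_lt h hfx hxy hr.1 hr.2) cL cR
      Ioo_subset_Icc_self (by rw [closure_Ioo zero_ne_one])
  simpa [hL, hR] using heq (right_mem_Icc.2 zero_le_one)

theorem av_normSq_bdry_le (h : Surrounds m A) (hx : ‖x‖ = 1) :
    av (fun u => normSq (bdry m A x 1 u)) ≤ (1 + av (fun u => normSq (coef m A x x u))) / 2 := by
  set p := tst m A x with hp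
  set g := fun u => av (fun w => m.G w u * conj (p w)) with hg
  have hb : ∀ u, bdry m A x 1 u = conj (p u) + g u := fun u => by simp [bdry, hp, hg]
  have cp : ContinuousOn p (sphere (0 : ℂ) 1) :=
    (continuousOn_tst h x).mono sphere_subset_closedBall
  have dp : ∀ z ∈ ball (0 : ℂ) 1, DifferentiableAt ℂ p z := fun z hz =>
    differentiableAt_tst h x (mem_ball_zero_iff.1 hz).le
  have hx0 : coef m A x x 0 = 1 := by simp [coef_zero h, inner_self_eq_norm_sq_to_K, hx]
  have hp0 : p 0 = 1 := by simp [hp, tst, hx0]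
  have cG : ContinuousOn (fun q : ℂ × ℂ => m.G q.1 q.2)
      (sphere (0 : ℂ) 1 ×ˢ sphere (0 : ℂ) 1) := m.continuousOn_G.mono fun q hq =>
    ⟨(mem_sphere_zero_iff_norm.1 hq.1).le, (mem_sphere_zero_iff_norm.1 hq.2).le,
      Or.inl (mem_sphere_zero_iff_norm.1 hq.1)⟩
  have cGu : ∀ u : ℂ, ‖u‖ = 1 → ContinuousOn (fun w => m.G w u) (sphere (0 : ℂ) 1) :=
    fun u hu => cG.comp (f := fun w => (w, u)) (by fun_prop)
      fun w hw => ⟨hw, mem_sphere_zero_iff_norm.2 hu⟩
  have cGw : ∀ w : ℂ, ‖w‖ = 1 → ContinuousOn (fun u => m.G w u) (sphere (0 : ℂ) 1) :=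
    fun w hw => cG.comp (f := fun u => (w, u)) (by fun_prop)
      fun u hu => ⟨mem_sphere_zero_iff_norm.2 hw, hu⟩
  have cg : ContinuousOn g (sphere (0 : ℂ) 1) := by
    rw [hg, continuousOn_iff_continuous_domRestrict]
    refine continuous_av (F := fun (u : sphere (0 : ℂ) 1) w => m.G w u * conj (p w)) ?_
    exact (cG.comp_continuous (f := fun q : sphere (0 : ℂ) 1 × ℝ =>
      (circleMap 0 1 q.2, (q.1 : ℂ))) (by fun_prop) fun q => ⟨circlePoint_mem _, q.1.2⟩).fun_mul
      (continuous_conj.comp (cp.comp_continuous (by fun_prop) fun q => circlePoint_mem _))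
  have cross : av (fun u => p u * g u) = 0 := by
    have cF : ContinuousOn (Function.uncurry fun u w => p u * (m.G w u * conj (p w)))
        (sphere (0 : ℂ) 1 ×ˢ sphere (0 : ℂ) 1) :=
      (cp.comp continuousOn_fst fun q hq => hq.1).fun_mul
        ((cG.comp (f := fun q : ℂ × ℂ => (q.2, q.1)) (by fun_prop) fun q hq => ⟨hq.2, hq.1⟩).fun_mul
          (continuous_conj.comp_continuousOn' (cp.comp continuousOn_snd fun q hq => hq.2)))
    rw [hg]
    rw [av_congr (g := fun u => av fun w => p u * (m.G w u * conj (p w))) fun u _ =>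
      (av_const_mul _ _).symm, av_swap cF,
      av_congr (g := fun _ => (0 : ℂ)) fun w hw => ?_, av_const]
    rw [av_congr (g := fun u => conj (p w) * (m.G w u * p u)) fun u _ => by ring, av_const_mul,
      m.av_G_right (continuousOn_tst h x) dp hw, mul_zero]
  set q := fun w => p w - 1 with hq
  have cq : ContinuousOn q (sphere (0 : ℂ) 1) := cp.fun_sub continuousOn_const
  have cq' : ContinuousOn q (closedBall (0 : ℂ) 1) := (continuousOn_tst h x).fun_sub continuousOn_const
  have dq : ∀ z ∈ ball (0 : ℂ) 1, DifferentiableAt ℂ q z := fun z hz =>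
    (dp z hz).fun_sub (differentiableAt_const _)
  have one_c : ContinuousOn (fun _ : ℂ => (1 : ℂ)) (closedBall (0 : ℂ) 1) := continuousOn_const
  have one_d : ∀ z ∈ ball (0 : ℂ) 1, DifferentiableAt ℂ (fun _ : ℂ => (1 : ℂ)) z :=
    fun z _ => differentiableAt_const _
  have g_le : ∀ u : ℂ, ‖u‖ = 1 → normSq (g u) ≤ av (fun w => m.ker w u * normSq (q w)) := by
    intro u hu
    have ck : ContinuousOn (fun w => m.ker w u) (sphere (0 : ℂ) 1) :=
      continuousOn_const.fun_add (continuousOn_const.fun_mul (continuous_re.comp_continuousOn' (cGu u hu)))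
    have hk1 : av (fun w => m.ker w u) = 1 := by
      unfold Model.ker
      rw [av_add continuousOn_const
        (continuousOn_const.fun_mul (continuous_re.comp_continuousOn' (cGu u hu))), av_const,
        av_const_mul_real, av_re (cGu u hu)]
      have := m.av_G_left one_c one_d hu
      simp only [mul_one] at this
      simp [this]
    have hgu : g u = av (fun w => (m.ker w u : ℂ) * conj (q w)) := by
      have t1 := continuous_conj.comp_continuousOn' cq
      have t2 := (cGu u hu).fun_mul (continuous_conj.comp_continuousOn' cp)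
      have t3 := cGu u hu
      have t4 := continuous_conj.comp_continuousOn' ((cGu u hu).fun_mul cq)
      rw [av_congr (g := fun w => conj (q w) + (m.G w u * conj (p w) - m.G w u)
        + conj (m.G w u * q w)) fun w _ => ?_,
        av_add (t1.fun_add (t2.fun_sub t3)) t4, av_add t1 (t2.fun_sub t3), av_sub t2 t3,
        av_conj cq, av_conj ((cGu u hu).fun_mul cq), m.av_G_left cq' dq hu]
      · have e1 : av q = 0 := by
          rw [av_holo countable_empty cq' fun z hz => dq z hz.1]; simp [hq, hp0]
        have e2 : av (fun w => m.G w u) = 0 := by simpa using m.av_G_left one_c one_d hu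
        simp [e1, e2, hg]
      · simp only [hq, Model.ker, ofReal_add, ofReal_one, ofReal_mul, ofReal_ofNat, map_sub,
          map_one, map_mul, re_eq_add_conj]
        ring
    rw [hgu]
    refine (normSq_av_le ck (continuous_conj.comp_continuousOn' cq)
      (fun w hw => m.ker_nonneg hw hu) hk1).trans (le_of_eq (av_congr fun w _ => ?_))
    rw [normSq_conj]
  have cN : ContinuousOn (fun w => normSq (q w)) (sphere (0 : ℂ) 1) :=
    continuous_normSq.comp_continuousOn' cq
  have cK : ContinuousOn (Function.uncurry fun u w => m.ker w u * normSq (q w))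
      (sphere (0 : ℂ) 1 ×ˢ sphere (0 : ℂ) 1) :=
    (continuousOn_const.fun_add (continuousOn_const.fun_mul (continuous_re.comp_continuousOn'
      (cG.comp (f := fun q : ℂ × ℂ => (q.2, q.1)) (by fun_prop)
        fun q hq => ⟨hq.2, hq.1⟩)))).fun_mul (cN.comp continuousOn_snd fun q hq => hq.2)
  have gsum : av (fun u => normSq (g u)) ≤ av (fun w => normSq (q w)) := by
    calc av (fun u => normSq (g u)) ≤ av (fun u => av fun w => m.ker w u * normSq (q w)) :=
          av_mono (continuous_normSq.comp_continuousOn' cg) (by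
            rw [continuousOn_iff_continuous_domRestrict]
            refine continuous_av (F := fun (u : sphere (0 : ℂ) 1) w =>
              m.ker w u * normSq (q w)) ?_
            exact cK.comp_continuous (f := fun p : sphere (0 : ℂ) 1 × ℝ =>
              ((p.1 : ℂ), circleMap 0 1 p.2)) (by fun_prop)
                fun p => ⟨p.1.2, circlePoint_mem _⟩) g_le
      _ = av (fun w => av fun u => m.ker w u * normSq (q w)) := av_swap cK
      _ = av (fun w => normSq (q w)) := by
          refine av_congr fun w hw => ?_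
          rw [av_congr (g := fun u => normSq (q w) * m.ker w u) fun u _ => mul_comm _ _,
            av_const_mul_real]
          unfold Model.ker
          rw [av_add continuousOn_const
            (continuousOn_const.fun_mul (continuous_re.comp_continuousOn' (cGw w hw))), av_const,
            av_const_mul_real, av_re (cGw w hw)]
          have := m.av_G_right one_c one_d hw
          simp only [mul_one] at this
          simp [this]
  have ca : ContinuousOn (coef m A x x) (sphere (0 : ℂ) 1) :=
    (continuousOn_coef h x x).mono sphere_subset_closedBall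
  have cnp : ContinuousOn (fun u => normSq (p u)) (sphere (0 : ℂ) 1) :=
    continuous_normSq.comp_continuousOn' cp
  have cre : ContinuousOn (fun u => (p u * g u).re) (sphere (0 : ℂ) 1) :=
    continuous_re.comp_continuousOn' (cp.fun_mul cg)
  have qsum : av (fun w => normSq (q w)) = av (fun w => normSq (p w)) - 1 := by
    have e : ∀ w, normSq (q w) = normSq (p w) - (2 * (p w).re - 1) := fun w => by
      simp [hq, normSq_sub]; ring
    rw [av_congr (fun w _ => e w), av_sub cnp ((continuousOn_const.fun_mul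
      (continuous_re.comp_continuousOn' cp)).fun_sub continuousOn_const),
      av_sub (continuousOn_const.fun_mul (continuous_re.comp_continuousOn' cp)) continuousOn_const,
      av_const_mul_real, av_re cp, av_holo countable_empty (continuousOn_tst h x)
        fun z hz => dp z hz.1, av_const]
    have h0 : tst m A x 0 = 1 := hp0
    simp [h0]; norm_num
  have psum : av (fun w => normSq (p w)) = (3 + av (fun u => normSq (coef m A x x u))) / 4 := by
    have e : ∀ w, normSq (p w) = 1 / 4 * (1 + (normSq (coef m A x x w)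
        + 2 * (coef m A x x w).re)) := fun w => by
      simp [hp, tst, normSq_apply]; ring
    rw [av_congr (fun w _ => e w), av_const_mul_real,
      av_add continuousOn_const ((continuous_normSq.comp_continuousOn' ca).fun_add
        (continuousOn_const.fun_mul (continuous_re.comp_continuousOn' ca))),
      av_add (continuous_normSq.comp_continuousOn' ca)
        (continuousOn_const.fun_mul (continuous_re.comp_continuousOn' ca)),
      av_const, av_const_mul_real, av_re ca, av_coef h]
    simp [inner_self_eq_norm_sq_to_K, hx]; ring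
  have e : ∀ u, normSq (bdry m A x 1 u) = normSq (p u) + (normSq (g u) + 2 * (p u * g u).re) :=
    fun u => by rw [hb, normSq_add, normSq_conj]; simp [mul_re]; ring
  rw [av_congr (fun u _ => e u), av_add cnp ((continuous_normSq.comp_continuousOn' cg).fun_add
      (continuousOn_const.fun_mul cre)),
    av_add (continuous_normSq.comp_continuousOn' cg) (continuousOn_const.fun_mul cre),
    av_const_mul_real, av_re (cp.fun_mul cg), cross]
  simp only [zero_re, mul_zero, add_zero]
  linarith [qsum, psum, gsum]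

theorem av_normSq_coef_le (h : Surrounds m A) (hx : ‖x‖ = 1)
    (hxy : ∀ v : ℂ, ‖v‖ ≤ 1 → coef m A y y v = coef m A x x v) :
    av (fun u => normSq (coef m A y x u)) ≤ 2 * (1 + av (fun u => normSq (coef m A x x u))) := by
  set a := coef m A x x with ha
  set b := coef m A y x with hb
  set c := coef m A x y with hc
  have ca := (continuousOn_coef h x x).mono sphere_subset_closedBall
  have cb := (continuousOn_coef h y x).mono sphere_subset_closedBall
  have cc := (continuousOn_coef h x y).mono sphere_subset_closedBall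
  have key := av_mono (f := fun u => normSq (b u) + 2 * (b u * c u).re)
    (g := fun u => 2 * normSq (a u) + 2 * (a u * a u).re)
    ((continuous_normSq.comp_continuousOn' cb).fun_add
      (continuousOn_const.fun_mul (continuous_re.comp_continuousOn' (cb.fun_mul cc))))
    ((continuousOn_const.fun_mul (continuous_normSq.comp_continuousOn' ca)).fun_add
      (continuousOn_const.fun_mul (continuous_re.comp_continuousOn' (ca.fun_mul ca))))
    fun u hu => by
      have h1 := two_coef_le h x y hu (hxy u hu.le)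
      have h2 : normSq (b u + conj (c u)) ≤ (2 * (a u).re) ^ 2 := by
        rw [← Complex.sq_norm]; gcongr
      rw [normSq_add, normSq_conj, conj_conj] at h2
      have h3 := normSq_nonneg (c u)
      simp only [mul_re, normSq_apply] at h2 h3 ⊢
      nlinarith
  rw [av_add (continuous_normSq.comp_continuousOn' cb)
      (continuousOn_const.fun_mul (continuous_re.comp_continuousOn' (cb.fun_mul cc))),
    av_add (continuousOn_const.fun_mul (continuous_normSq.comp_continuousOn' ca))
      (continuousOn_const.fun_mul (continuous_re.comp_continuousOn' (ca.fun_mul ca))),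
    av_const_mul_real, av_const_mul_real, av_const_mul_real,
    av_re (cb.fun_mul cc), av_re (ca.fun_mul ca),
    av_holo (f := fun u => b u * c u) countable_empty
      ((continuousOn_coef h y x).fun_mul (continuousOn_coef h x y)) (fun z hz =>
        (differentiableAt_coef h y x (mem_ball_zero_iff.1 hz.1).le).fun_mul
          (differentiableAt_coef h x y (mem_ball_zero_iff.1 hz.1).le)),
    av_holo (f := fun u => a u * a u) countable_empty
      ((continuousOn_coef h x x).fun_mul (continuousOn_coef h x x)) (fun z hz =>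
        (differentiableAt_coef h x x (mem_ball_zero_iff.1 hz.1).le).fun_mul
          (differentiableAt_coef h x x (mem_ball_zero_iff.1 hz.1).le))] at key
  simp only [ha, hb, hc, coef_zero h] at key ⊢
  rw [← inner_conj_symm x y, mul_conj, inner_self_eq_norm_sq_to_K, hx] at key
  simp at key
  linarith [normSq_nonneg ⟪y, x⟫_ℂ]

/-- The heart of Crouzeix's inequality. -/
theorem le_two_mul (h : Surrounds m A) (hx : ‖x‖ = 1) (hC : C ≠ 0)
    (hfx : Polynomial.aeval A P x = (C : ℂ) • y)
    (hfy : ∀ z, ⟪y, Polynomial.aeval A P z⟫_ℂ = (C : ℂ) * ⟪x, z⟫_ℂ)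
    (hB : ∀ u : ℂ, ‖u‖ = 1 → ‖P.eval (m.psi u)‖ ≤ B) : C ≤ 2 * B := by
  have hxy : ∀ v : ℂ, ‖v‖ ≤ 1 → coef m A y y v = coef m A x x v := by
    intro v hv
    apply mul_left_cancel₀ (show (C : ℂ) ≠ 0 by exact_mod_cast hC)
    have hc : ∀ Q : Polynomial ℂ, Commute (Polynomial.aeval A Q) (op m A v) := fun Q => by
      induction Q using Polynomial.induction_on' with
      | add p q hp hq => rw [map_add]; exact hp.add_left hq
      | monomial n a =>
        rw [Polynomial.aeval_monomial]
        exact (Algebra.commute_algebraMap_left a _).mul_left ((commute_op h hv).symm.pow_left n)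
    have := hfy (op m A v x)
    rw [show Polynomial.aeval A P (op m A v x) = op m A v (Polynomial.aeval A P x) from
      congrArg (fun T : E →L[ℂ] E => T x) (hc P).eq, hfx, map_smul, inner_smul_right] at this
    exact this
  have key := identity_one h hfx hxy
  set a := coef m A x x with ha
  set b := coef m A y x with hb
  have ca := (continuousOn_coef h x x).mono sphere_subset_closedBall
  have cb := (continuousOn_coef h y x).mono sphere_subset_closedBall
  have cE := continuousOn_bdry h x (r := 1) (right_mem_Icc.2 zero_le_one)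
  set S := (1 + av (fun u => normSq (a u))) / 2 with hS
  have hS0 : 0 < S := by
    have : 0 ≤ av (fun u => normSq (a u)) :=
      Real.circleAverage_nonneg_of_nonneg fun u _ => normSq_nonneg _
    rw [hS]; linarith
  have lhs : av (fun w => conj (tst m A x w) * a w) = (S : ℂ) := by
    have e : ∀ w, conj (tst m A x w) * a w = 1 / 2 * (a w + ((normSq (a w) : ℝ) : ℂ)) :=
      fun w => by simp [tst, ha, map_add, normSq_eq_conj_mul_self, map_ofNat]; ring
    rw [av_congr (fun w _ => e w), av_const_mul,
      av_add ca (continuous_ofReal.comp_continuousOn' (continuous_normSq.comp_continuousOn' ca)),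
      av_ofReal (continuous_normSq.comp_continuousOn' ca), av_coef h,
      inner_self_eq_norm_sq_to_K, hx, hS]
    simp; ring
  rw [lhs] at key
  have hB0 : 0 ≤ B := (norm_nonneg _).trans (hB 1 (by simp))
  have c1 : ContinuousOn (fun u => normSq (b u)) (sphere (0 : ℂ) 1) :=
    continuous_normSq.comp_continuousOn' cb
  have c2 : ContinuousOn (fun u => normSq (bdry m A x 1 u)) (sphere (0 : ℂ) 1) :=
    continuous_normSq.comp_continuousOn' cE
  have cp : ContinuousOn (fun u => P.eval (m.psi u) * b u * bdry m A x 1 u)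
      (sphere (0 : ℂ) 1) := ((P.continuous.comp_continuousOn' continuousOn_psi).fun_mul cb).fun_mul cE
  have h1 : ‖(C : ℂ) * (S : ℂ)‖ ≤ B * (av (fun u => normSq (bdry m A x 1 u))
      + 1 / 4 * av (fun u => normSq (b u))) := by
    rw [key, ← av_const_mul_real (1 / 4), ← av_add c2 (continuousOn_const.fun_mul c1),
      ← av_const_mul_real B]
    refine (norm_av_le cp).trans (av_mono cp.norm
      (continuousOn_const.fun_mul (c2.fun_add (continuousOn_const.fun_mul c1))) fun u hu => ?_)
    rw [norm_mul, norm_mul, mul_assoc]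
    refine mul_le_mul (hB u hu) ?_ (by positivity) hB0
    rw [← Complex.sq_norm, ← Complex.sq_norm]
    nlinarith [sq_nonneg (‖bdry m A x 1 u‖ - ‖b u‖ / 2)]
  have h2 := av_normSq_bdry_le h hx
  have h3 := av_normSq_coef_le h hx hxy
  rw [← ofReal_mul, Complex.norm_real, Real.norm_eq_abs] at h1
  have h4 : C * S ≤ 2 * B * S := by
    refine (le_abs_self _).trans (h1.trans ?_)
    have := mul_le_mul_of_nonneg_left (add_le_add h2 (mul_le_mul_of_nonneg_left h3
      (by norm_num : (0 : ℝ) ≤ 1 / 4))) hB0
    refine this.trans (le_of_eq ?_)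
    rw [hS]; ring
  exact le_of_mul_le_mul_right h4 hS0

end Core

end Vale.Agent.P123
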