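import Vale.Agent.P123.Defs

/-!
Convex models from shrunken Schwarz-Christoffel maps of equiangular polygons.
-/

noncomputable section

namespace Vale.Agent.P123

open Complex Metric Set Filter Topology
open scoped ComplexConjugate Real

namespace Curve

variable {N : ℕ}

/-- The point `exp (-i t)` of the circle. -/
def pt (t : ℝ) : ℂ := Complex.exp (-(t : ℂ) * I)

theorem norm_pt (t : ℝ) : ‖pt t‖ = 1 := by simp [pt, Complex.norm_exp]

theorem pt_ne (t : ℝ) : pt t ≠ 0 := Complex.exp_ne_zero _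

theorem continuous_pt : Continuous pt := by unfold pt; fun_prop

theorem hasDerivAt_pt (t : ℝ) : HasDerivAt pt (-I * pt t) t := by
  have h : HasDerivAt (fun s : ℝ => -(s : ℂ) * I) (-I) t := by
    simpa using ((hasDerivAt_id t).ofReal_comp.neg).mul_const I
  exact h.cexp.congr_deriv (mul_comm _ _)

theorem pt_inv (t : ℝ) : (pt t)⁻¹ = Complex.exp ((t : ℂ) * I) := by
  rw [pt, ← Complex.exp_neg]; simp

theorem pt_periodic : Function.Periodic pt (2 * π) := by
  intro t
  unfold pt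
  rw [show (-((t + 2 * π : ℝ) : ℂ) * I) = -(t : ℂ) * I + ((-1 : ℤ) : ℂ) * (2 * π * I) by
    push_cast; ring, Complex.exp_add, Complex.exp_int_mul_two_pi_mul_I, mul_one]

theorem exists_pt {v : ℂ} (hv : ‖v‖ = 1) (t : ℝ) : ∃ σ ∈ Ico t (t + 2 * π), pt σ = v := by
  refine ⟨toIcoMod Real.two_pi_pos t (-Complex.arg v), toIcoMod_mem_Ico _ _ _, ?_⟩
  have h := pt_periodic.sub_zsmul_eq (x := -Complex.arg v)
    (toIcoDiv Real.two_pi_pos t (-Complex.arg v))
  rw [toIcoMod]
  rw [h]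
  have := Complex.norm_mul_exp_arg_mul_I v
  rw [hv, ofReal_one, one_mul] at this
  simpa [pt] using this

theorem exponent_re_pos (hN : 3 ≤ N) : 0 < (((2 / N : ℝ)) : ℂ).re := by
  rw [ofReal_re]
  have : (0 : ℝ) < N := by exact_mod_cast (by omega : 0 < N)
  positivity

theorem re_one_sub_pos {a w : ℂ} (ha : ‖a‖ = 1) (hw : ‖w‖ < 1) : 0 < (1 - a * w).re := by
  have h := re_le_norm (a * w)
  rw [norm_mul, ha, one_mul] at h
  simp only [sub_re, one_re]; linarith

theorem mem_slit {a w : ℂ} (ha : ‖a‖ = 1) (hw : ‖w‖ < 1) : 1 - a * w ∈ slitPlane :=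
  Or.inl (re_one_sub_pos ha hw)

theorem one_sub_ne {a w : ℂ} (ha : ‖a‖ = 1) (hw : ‖w‖ < 1) : 1 - a * w ≠ 0 :=
  slitPlane_ne_zero (mem_slit ha hw)

theorem continuousOn_sc (hN : 3 ≤ N) {a : Fin N → ℂ} (ha : ∀ j, ‖a j‖ = 1) :
    ContinuousOn (sc N a) (closedBall 0 1) := by
  unfold sc
  refine continuousOn_finsetProd _ fun j _ => fun w hw => ?_
  refine ContinuousAt.continuousWithinAt ?_
  refine (continuousAt_cpow_const_of_re_pos (Or.inl ?_) (exponent_re_pos hN)).comp
    (by fun_prop : ContinuousAt (fun v : ℂ => 1 - a j * v) w)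
  have h := re_le_norm (a j * w)
  rw [norm_mul, ha j, one_mul] at h
  simp only [sub_re, one_re]
  linarith [mem_closedBall_zero_iff.1 hw]

theorem differentiableOn_sc {a : Fin N → ℂ} (ha : ∀ j, ‖a j‖ = 1) :
    DifferentiableOn ℂ (sc N a) (ball 0 1) := by
  intro w hw
  refine DifferentiableAt.differentiableWithinAt ?_
  unfold sc
  refine DifferentiableAt.fun_finsetProd fun j _ => ?_
  exact DifferentiableAt.cpow_const (by fun_prop) (mem_slit (ha j) (mem_ball_zero_iff.1 hw))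

/-- The logarithm of the product. -/
def logSc (N : ℕ) (a : Fin N → ℂ) (w : ℂ) : ℂ :=
  ((2 / N : ℝ) : ℂ) * ∑ j, Complex.log (1 - a j * w)

theorem sc_eq_exp {a : Fin N → ℂ} (ha : ∀ j, ‖a j‖ = 1) {w : ℂ} (hw : ‖w‖ < 1) :
    sc N a w = Complex.exp (logSc N a w) := by
  rw [logSc, Finset.mul_sum, Complex.exp_sum]
  refine Finset.prod_congr rfl fun j _ => ?_
  rw [cpow_def_of_ne_zero (one_sub_ne (ha j) hw), mul_comm]

theorem hasDerivAt_logSc {a : Fin N → ℂ} (ha : ∀ j, ‖a j‖ = 1) {w : ℂ} (hw : ‖w‖ < 1) :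
    HasDerivAt (logSc N a)
      (((2 / N : ℝ) : ℂ) * ∑ j, -a j / (1 - a j * w)) w := by
  refine (HasDerivAt.fun_sum fun j _ => ?_).const_mul _
  have h1 : HasDerivAt (fun v => 1 - a j * v) (-a j) w := by
    simpa using ((hasDerivAt_id w).const_mul (a j)).const_sub 1
  exact h1.clog (mem_slit (ha j) hw)

theorem sc_zero (a : Fin N → ℂ) : sc N a 0 = 1 := by simp [sc]

theorem hasDerivAt_sc_zero {a : Fin N → ℂ} (ha : ∀ j, ‖a j‖ = 1) (hsum : ∑ j, a j = 0) :
    HasDerivAt (sc N a) 0 0 := by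
  have h := (hasDerivAt_logSc ha (w := 0) (by simp)).cexp
  simp only [mul_zero, sub_zero, div_one, Finset.sum_neg_distrib, hsum, neg_zero] at h
  refine h.congr_of_eventuallyEq ?_
  filter_upwards [ball_mem_nhds (0 : ℂ) one_pos] with w hw
  exact sc_eq_exp ha (mem_ball_zero_iff.1 hw)

theorem re_div_one_sub {z : ℂ} (hz : ‖z‖ < 1) : -(1 / 2) < (z / (1 - z)).re := by
  have h1 : z.re * z.re + z.im * z.im < 1 := by
    rw [← normSq_apply, ← Complex.sq_norm]
    nlinarith [norm_nonneg z]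
  have h2 : 0 < normSq (1 - z) := by
    refine normSq_pos.2 fun h => ?_
    rw [← sub_eq_zero.1 h, norm_one] at hz
    exact lt_irrefl _ hz
  rw [div_re, ← add_div, lt_div_iff₀ h2]
  rw [normSq_apply]
  simp only [sub_re, sub_im, one_re, one_im]
  nlinarith

section

variable {a : Fin N → ℂ} {c : ℂ} {s : ℝ}

/-- The logarithm of the tangent vector. -/
def logTan (N : ℕ) (a : Fin N → ℂ) (s t : ℝ) : ℂ :=
  (t : ℂ) * I + logSc N a ((s : ℂ) * pt t)

theorem norm_smul_pt (hs : 0 < s) (hs1 : s < 1) (t : ℝ) : ‖(s : ℂ) * pt t‖ < 1 := by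
  rw [norm_mul, norm_pt, mul_one, Complex.norm_real, Real.norm_eq_abs, abs_of_pos hs]
  exact hs1

theorem hasDerivAt_logTan (ha : ∀ j, ‖a j‖ = 1) (hs : 0 < s) (hs1 : s < 1) (t : ℝ) :
    HasDerivAt (logTan N a s)
      (I * (1 + ((2 / N : ℝ) : ℂ) *
        ∑ j, a j * ((s : ℂ) * pt t) / (1 - a j * ((s : ℂ) * pt t)))) t := by
  have h1 := (hasDerivAt_logSc ha (norm_smul_pt hs hs1 t)).comp t ((hasDerivAt_pt t).const_mul (s : ℂ))
  have h2 : HasDerivAt (fun r : ℝ => (r : ℂ) * I) I t := by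
    simpa using ((hasDerivAt_id t).ofReal_comp).mul_const I
  refine (h2.add h1).congr_deriv ?_
  simp only [Finset.mul_sum, Finset.sum_mul, mul_add, mul_one]
  congr 1
  refine Finset.sum_congr rfl fun j _ => ?_
  ring

theorem logTan_add_two_pi (t : ℝ) :
    logTan N a s (t + 2 * π) = logTan N a s t + 2 * π * I := by
  unfold logTan
  rw [pt_periodic t]
  push_cast
  ring

theorem strictMono_angle (hN : 3 ≤ N) (ha : ∀ j, ‖a j‖ = 1) (hs : 0 < s) (hs1 : s < 1) :
    StrictMono fun t => (logTan N a s t).im := by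
  refine strictMono_of_hasDerivAt_pos
    (fun t => Complex.imCLM.hasFDerivAt.comp_hasDerivAt t (hasDerivAt_logTan ha hs hs1 t))
    fun t => ?_
  have hN' : (0 : ℝ) < N := by exact_mod_cast (by omega : 0 < N)
  have : Nonempty (Fin N) := ⟨⟨0, by omega⟩⟩
  have key : ∑ _j : Fin N, -(1 / 2 : ℝ) <
      ∑ j, (a j * ((s : ℂ) * pt t) / (1 - a j * ((s : ℂ) * pt t))).re :=
    Finset.sum_lt_sum_of_nonempty Finset.univ_nonempty fun j _ =>
      re_div_one_sub (by rw [norm_mul, ha j, one_mul]; exact norm_smul_pt hs hs1 t)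
  have h3 := mul_lt_mul_of_pos_left key (by positivity : (0 : ℝ) < 2 / N)
  simp only [Finset.sum_const, Finset.card_univ, Fintype.card_fin, nsmul_eq_mul] at h3
  rw [show 2 / (N : ℝ) * ((N : ℝ) * -(1 / 2)) = -1 by field_simp] at h3
  simp only [imCLM_apply, I_mul_im, add_re, one_re, re_ofReal_mul, re_sum]
  linarith

theorem re_tangent_pairing (c X Y : ℂ) :
    -(I * (c * Complex.exp X) * conj (c * Complex.exp Y)).re
      = ‖c‖ ^ 2 * Real.exp (X.re + Y.re) * Real.sin (X.im - Y.im) := by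
  rw [Complex.sq_norm, normSq_apply, Real.exp_add, Real.sin_sub]
  simp only [map_mul, mul_re, mul_im, I_re, I_im, conj_re, conj_im, exp_re, exp_im]
  ring

/-- Positivity for a closed curve whose tangent turns monotonically once. -/
theorem turning_pos (hc : c ≠ 0) {γ L : ℝ → ℂ}
    (hγ : ∀ t, HasDerivAt γ (I * (c * Complex.exp (L t))) t) (hL : Continuous L)
    (hper : ∀ t, γ (t + 2 * π) = γ t) (hm : StrictMono fun t => (L t).im)
    (hL2 : ∀ t, L (t + 2 * π) = L t + 2 * π * I) (t : ℝ) {σ : ℝ}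
    (hσ : σ ∈ Ioo t (t + 2 * π)) :
    0 < ((γ t - γ σ) * conj (c * Complex.exp (L t))).re := by
  set F : ℝ → ℝ := fun r => ((γ t - γ r) * conj (c * Complex.exp (L t))).re with hF
  set θ : ℝ → ℝ := fun r => (L r).im with hθ
  have hθc : Continuous θ := continuous_im.comp hL
  have hθ2 : θ (t + 2 * π) = θ t + 2 * π := by simp [hθ, hL2]
  have hd : ∀ r, HasDerivAt F
      (‖c‖ ^ 2 * Real.exp ((L r).re + (L t).re) * Real.sin (θ r - θ t)) r := by
    intro r
    have h := Complex.reCLM.hasFDerivAt.comp_hasDerivAt r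
      (((hγ r).const_sub (γ t)).mul_const (conj (c * Complex.exp (L t))))
    refine h.congr_deriv ?_
    rw [reCLM_apply, neg_mul, neg_re, re_tangent_pairing]
  have hFc : Continuous F := continuous_iff_continuousAt.2 fun r => (hd r).continuousAt
  have hc2 : 0 < ‖c‖ ^ 2 := by positivity
  have hpi := Real.pi_pos
  obtain ⟨σ₀, hσ₀, hθσ₀⟩ := intermediate_value_Icc (by linarith : t ≤ t + 2 * π)
    hθc.continuousOn (show θ t + π ∈ Icc (θ t) (θ (t + 2 * π)) by
      rw [hθ2]; constructor <;> linarith)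
  have hinc : StrictMonoOn F (Icc t σ₀) := by
    refine strictMonoOn_of_deriv_pos (convex_Icc _ _) hFc.continuousOn fun r hr => ?_
    rw [interior_Icc] at hr
    rw [(hd r).deriv]
    refine mul_pos (mul_pos hc2 (Real.exp_pos _)) (Real.sin_pos_of_pos_of_lt_pi ?_ ?_)
    · linarith [show θ t < θ r from hm hr.1]
    · linarith [show θ r < θ σ₀ from hm hr.2]
  have hdec : StrictAntiOn F (Icc σ₀ (t + 2 * π)) := by
    refine strictAntiOn_of_deriv_neg (convex_Icc _ _) hFc.continuousOn fun r hr => ?_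
    rw [interior_Icc] at hr
    rw [(hd r).deriv]
    refine mul_neg_of_pos_of_neg (mul_pos hc2 (Real.exp_pos _)) ?_
    rw [← Real.sin_sub_two_pi]
    refine Real.sin_neg_of_neg_of_neg_pi_lt ?_ ?_
    · linarith [show θ r < θ (t + 2 * π) from hm hr.2]
    · linarith [show θ σ₀ < θ r from hm hr.1]
  show 0 < F σ
  rcases le_total σ σ₀ with h | h
  · have := hinc (left_mem_Icc.2 hσ₀.1) ⟨hσ.1.le, h⟩ hσ.1
    simpa [hF] using this
  · have := hdec ⟨h, hσ.2.le⟩ (right_mem_Icc.2 hσ₀.2) hσ.2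
    simpa [hF, hper] using this

end

theorem exists_phi {a : Fin N → ℂ} (ha : ∀ j, ‖a j‖ = 1) (hsum : ∑ j, a j = 0)
    {s : ℝ} (hs : 0 < s) (c p : ℂ) :
    ∃ φ : ℂ → ℂ, DifferentiableOn ℂ φ (ball 0 (1 / s)) ∧ c + φ 1 = p ∧
      ∀ v ∈ ball (0 : ℂ) (1 / s), c - v ^ 2 * deriv φ v = c * sc N a (s * v) := by
  set g : ℂ → ℂ := fun v => sc N a (s * v) with hg
  set U := ball (0 : ℂ) (1 / s) with hU
  have hU0 : U ∈ 𝓝 (0 : ℂ) := ball_mem_nhds _ (by positivity)
  have hgd : DifferentiableOn ℂ g U := by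
    refine (differentiableOn_sc ha).comp (by fun_prop) fun v hv => ?_
    rw [hU, mem_ball_zero_iff, lt_div_iff₀ hs] at hv
    rw [mem_ball_zero_iff, norm_mul, Complex.norm_real, Real.norm_eq_abs, abs_of_pos hs]
    linarith
  have h1 : deriv g 0 = 0 := by
    have h := (hasDerivAt_sc_zero ha hsum)
    have h' : HasDerivAt (sc N a) 0 ((s : ℂ) * 0) := by simpa using h
    have := h'.comp (0 : ℂ) ((hasDerivAt_id (0 : ℂ)).const_mul (s : ℂ))
    simpa [hg, Function.comp_def] using this.deriv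
  set D := dslope (dslope g 0) 0 with hD
  have hDd : DifferentiableOn ℂ D U :=
    (differentiableOn_dslope hU0).2 ((differentiableOn_dslope hU0).2 hgd)
  have key : ∀ v : ℂ, v ^ 2 * D v = g v - 1 := by
    intro v
    have e1 := sub_smul_dslope g 0 v
    have e2 := sub_smul_dslope (dslope g 0) 0 v
    rw [dslope_same, h1] at e2
    simp only [sub_zero, smul_eq_mul] at e1 e2
    rw [pow_two, mul_assoc, e2, e1]
    simp [hg, sc_zero]
  obtain ⟨φ, hφ1, hφ⟩ := ((hDd.const_mul (-c)).isExactOn_ball).with_val_at 1 (p - c)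
  refine ⟨φ, fun v hv => (hφ v hv).differentiableAt.differentiableWithinAt, by simp [hφ1],
    fun v hv => ?_⟩
  rw [(hφ v hv).deriv]
  linear_combination c * key v

theorem segment_mul {φ : ℂ → ℂ} {ρ : ℝ} (hφ : DifferentiableOn ℂ φ (ball 0 ρ)) {v u : ℂ}
    (hv : v ∈ ball (0 : ℂ) ρ) (hu : u ∈ ball (0 : ℂ) ρ) :
    (u - v) * (∫ t in (0 : ℝ)..1, deriv φ (v + t * (u - v))) = φ u - φ v := by
  have hseg : ∀ t ∈ Icc (0 : ℝ) 1, v + t * (u - v) ∈ ball (0 : ℂ) ρ := fun t ht => by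
    simpa [Complex.real_smul] using (convex_ball (0 : ℂ) ρ).add_smul_sub_mem hv hu ht
  rw [← intervalIntegral.integral_const_mul,
    intervalIntegral.integral_eq_sub_of_hasDerivAt (f := fun t : ℝ => φ (v + t * (u - v)))]
  · simp
  · intro t ht
    rw [uIcc_of_le zero_le_one] at ht
    have h1 := (hφ.differentiableAt (isOpen_ball.mem_nhds (hseg t ht))).hasDerivAt
    have h2 : HasDerivAt (fun s : ℝ => v + (s : ℂ) * (u - v)) (u - v) t := by
      simpa using (((hasDerivAt_id t).ofReal_comp).mul_const (u - v)).const_add v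
    simpa [mul_comm, Function.comp_def] using h1.comp t h2
  · refine ContinuousOn.intervalIntegrable ?_
    rw [uIcc_of_le zero_le_one]
    exact continuousOn_const.mul ((hφ.deriv isOpen_ball).continuousOn.comp (by fun_prop) hseg)

/-- A function with nonnegative real part on the circle and value one at `0` has no zero. -/
theorem ne_zero_of_re_nonneg {F : ℂ → ℂ} (hF : DiffContOnCl ℂ F (ball 0 1))
    (h0 : F 0 = 1) (hb : ∀ z : ℂ, ‖z‖ = 1 → 0 ≤ (F z).re) {v : ℂ} (hv : ‖v‖ < 1) : F v ≠ 0 := by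
  intro hFv
  set E : ℂ → ℂ := fun z => Complex.exp (-F z)
  have hE : DiffContOnCl ℂ E (ball 0 1) :=
    ⟨hF.differentiableOn.neg.cexp, hF.continuousOn.neg.cexp⟩
  have hle : ∀ z ∈ ball (0 : ℂ) 1, ‖E z‖ ≤ 1 := fun z hz => by
    refine norm_le_of_forall_mem_frontier_norm_le isBounded_ball hE (fun w hw => ?_)
      (subset_closure hz)
    rw [frontier_ball (0 : ℂ) one_ne_zero, mem_sphere_zero_iff_norm] at hw
    rw [Complex.norm_exp, Real.exp_le_one_iff, neg_re]
    linarith [hb w hw]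
  have hmax : IsMaxOn (norm ∘ E) (ball 0 1) v := fun z hz => by
    simpa [E, hFv] using hle z hz
  have := eqOn_of_isPreconnected_of_isMaxOn_norm (convex_ball (0 : ℂ) 1).isPreconnected isOpen_ball
    hE.differentiableOn (mem_ball_zero_iff.2 hv) hmax (mem_ball_self one_pos)
  have h2 := congrArg norm this
  simp [E, hFv, h0, Complex.norm_exp] at h2

theorem exists_model_aux (hN : 3 ≤ N) {a : Fin N → ℂ} (ha : ∀ j, ‖a j‖ = 1)
    (hsum : ∑ j, a j = 0) {s : ℝ} (hs : 0 < s) (hs1 : s < 1) {c : ℂ} (hc : c ≠ 0) (p : ℂ) :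
    ∃ m : Model, (∀ v : ℂ, ‖v‖ ≤ 1 → m.c - v ^ 2 * deriv m.phi v ≠ 0) ∧
      ∀ t, m.psi (pt t) = p + ∫ θ in (0 : ℝ)..t,
        I * c * Complex.exp ((θ : ℂ) * I) * sc N a ((s : ℂ) * pt θ) := by
  obtain ⟨φ, hφ, hφ1, hnum⟩ := exists_phi ha hsum hs c p
  set ψ : ℂ → ℂ := fun v => c / v + φ v with hψ
  set ν : ℂ → ℂ := fun v => c / v - v * deriv φ v with hν
  have h1s : (1 : ℝ) < 1 / s := by rw [lt_div_iff₀ hs]; linarith
  have hmem : ∀ {v : ℂ}, ‖v‖ ≤ 1 → v ∈ ball (0 : ℂ) (1 / s) := fun hv =>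
    mem_ball_zero_iff.2 (hv.trans_lt h1s)
  have hsv : ∀ {v : ℂ}, ‖v‖ ≤ 1 → ‖(s : ℂ) * v‖ < 1 := fun {v} hv => by
    rw [norm_mul, Complex.norm_real, Real.norm_eq_abs, abs_of_pos hs]
    exact lt_of_le_of_lt (mul_le_of_le_one_right hs.le hv) hs1
  have hgne : ∀ {v : ℂ}, ‖v‖ ≤ 1 → c * sc N a (s * v) ≠ 0 := fun hv =>
    mul_ne_zero hc (by rw [sc_eq_exp ha (hsv hv)]; exact Complex.exp_ne_zero _)
  have hν_eq : ∀ {v : ℂ}, ‖v‖ ≤ 1 → v ≠ 0 → ν v = c * sc N a (s * v) / v := fun {v} hv hv0 => by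
    rw [← hnum v (hmem hv), hν]; field_simp
  have htan : ∀ t, ν (pt t) = c * Complex.exp (logTan N a s t) := fun t => by
    rw [hν_eq (norm_pt t).le (pt_ne t), sc_eq_exp ha (norm_smul_pt hs hs1 t), logTan,
      Complex.exp_add, div_eq_mul_inv, pt_inv]
    ring
  set γ : ℝ → ℂ := fun t => ψ (pt t) with hγdef
  have hγ : ∀ t, HasDerivAt γ (I * (c * Complex.exp (logTan N a s t))) t := fun t => by
    have h1 : HasDerivAt ψ (-c / pt t ^ 2 + deriv φ (pt t)) (pt t) := by
      refine HasDerivAt.add ?_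
        (hφ.differentiableAt (isOpen_ball.mem_nhds (hmem (norm_pt t).le))).hasDerivAt
      exact ((hasDerivAt_const (pt t) c).fun_div (hasDerivAt_id (pt t)) (pt_ne t)).congr_deriv
        (by simp)
    refine (h1.comp t (hasDerivAt_pt t)).congr_deriv ?_
    rw [← htan, hν]
    field_simp [pt_ne t]
    ring
  have hper : ∀ t, γ (t + 2 * π) = γ t := fun t => by simp [hγdef, pt_periodic t]
  have hLc : Continuous (logTan N a s) :=
    continuous_iff_continuousAt.2 fun t => (hasDerivAt_logTan ha hs hs1 t).continuousAt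
  have hpos : ∀ v u : ℂ, ‖v‖ = 1 → ‖u‖ = 1 → v ≠ u → 0 < ((ψ v - ψ u) * conj (ν v)).re := by
    intro v u hv hu hne
    obtain ⟨t, -, rfl⟩ := exists_pt hv 0
    obtain ⟨σ, hσ, rfl⟩ := exists_pt hu t
    have hσ1 : t < σ := lt_of_le_of_ne hσ.1 (by rintro rfl; exact hne rfl)
    rw [htan]
    exact turning_pos hc hγ hLc hper (strictMono_angle hN ha hs hs1) logTan_add_two_pi t
      ⟨hσ1, hσ.2⟩
  have hconv : ∀ v u : ℂ, ‖v‖ = 1 → ‖u‖ = 1 → 0 ≤ ((ψ v - ψ u) * conj (ν v)).re := fun v u hv hu => by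
    rcases eq_or_ne v u with rfl | hne
    · simp
    · exact (hpos v u hv hu hne).le
  have hden : ∀ v u : ℂ, ‖v‖ ≤ 1 → ‖u‖ = 1 →
      c - v * u * (∫ t in (0 : ℝ)..1, deriv φ (v + t * (u - v))) ≠ 0 := by
    intro v u hv hu
    rcases eq_or_ne v u with rfl | hne
    · have := hgne hv
      rw [← hnum v (hmem hv)] at this
      simpa [pow_two] using this
    · have hu0 : u ≠ 0 := by rintro rfl; simp at hu
      set Num : ℂ → ℂ := fun z => (u - z) * c - z * u * (φ u - φ z) with hNum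
      set F : ℂ → ℂ := fun z => Num z / (u * (c * sc N a (s * z))) with hF
      have hψsub : ∀ z : ℂ, z ≠ 0 → ψ z - ψ u = Num z / (z * u) := fun z hz => by
        rw [hψ, hNum]; field_simp; ring
      intro h0
      have hNv : Num v = 0 := by
        have e := segment_mul hφ (hmem hv) (hmem hu.le)
        simp only [hNum]
        linear_combination (u - v) * h0 + v * u * e
      rcases hv.lt_or_eq with hv1 | hv1
      · have hsub : closedBall (0 : ℂ) 1 ⊆ ball (0 : ℂ) (1 / s) := fun z hz =>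
          hmem (mem_closedBall_zero_iff.1 hz)
        have hFd : DiffContOnCl ℂ F (ball 0 1) := by
          have h : DifferentiableOn ℂ F (closedBall 0 1) := by
            refine DifferentiableOn.div ?_ ?_ fun z hz => mul_ne_zero hu0
              (hgne (mem_closedBall_zero_iff.1 hz))
            · exact ((differentiableOn_id.const_sub u).mul_const c).sub
                ((differentiableOn_id.mul_const u).mul ((hφ.mono hsub).const_sub _))
            · refine (((differentiableOn_sc ha).comp (by fun_prop) fun z hz => ?_).const_mul c).const_mul u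
              exact mem_ball_zero_iff.2 (hsv (mem_closedBall_zero_iff.1 hz))
          exact ⟨h.mono ball_subset_closedBall, by
            rw [closure_ball (0 : ℂ) one_ne_zero]; exact h.continuousOn⟩
        refine ne_zero_of_re_nonneg hFd ?_ (fun z hz => ?_) hv1 (by simp [hF, hNv])
        · simp [hF, hNum, sc_zero, hu0, hc]
        · have hz0 : z ≠ 0 := by rintro rfl; simp at hz
          have e : F z = (ψ z - ψ u) / ν z := by
            rw [hψsub z hz0, hν_eq hz.le hz0, hF]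
            field_simp
          have := hconv z u hz hu
          rw [e, div_re, ← add_div]
          refine div_nonneg ?_ (normSq_nonneg _)
          simp only [mul_re, conj_re, conj_im] at this
          linarith
      · have hv0 : v ≠ 0 := by rintro rfl; simp at hv1
        have := hpos v u hv1 hu hne
        rw [hψsub v hv0, hNv] at this
        simp at this
  refine ⟨⟨1 / s, h1s, c, hc, φ, hφ, hconv, hden⟩, fun v hv => ?_, fun t => ?_⟩
  · change c - v ^ 2 * deriv φ v ≠ 0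
    rw [hnum v (hmem hv)]
    exact hgne hv
  · change γ t = _
    have hI : ∀ θ : ℝ, I * c * Complex.exp ((θ : ℂ) * I) * sc N a ((s : ℂ) * pt θ)
        = I * (c * Complex.exp (logTan N a s θ)) := fun θ => by
      rw [sc_eq_exp ha (norm_smul_pt hs hs1 θ), logTan, Complex.exp_add]; ring
    simp only [hI]
    rw [intervalIntegral.integral_eq_sub_of_hasDerivAt (fun θ _ => hγ θ)
      ((by fun_prop : Continuous fun θ => I * (c * Complex.exp (logTan N a s θ))).intervalIntegrable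
        _ _)]
    have : γ 0 = p := by simp [hγdef, hψ, pt, hφ1]
    rw [this]; ring

end Curve

open Curve in
/-- Shrunken Schwarz-Christoffel maps give models whose curves approximate the polygon. -/
theorem exists_model {N : ℕ} (hN : 3 ≤ N) (a : Fin N → ℂ) (c : ℂ) (hc : c ≠ 0)
    (ha : ∀ j, ‖a j‖ = 1) (hsum : ∑ j, a j = 0) (p : ℂ) {η : ℝ} (hη : 0 < η) :
    ∃ m : Model, (∀ v : ℂ, ‖v‖ ≤ 1 → m.c - v ^ 2 * deriv m.phi v ≠ 0) ∧
      ∀ t ∈ Icc (0 : ℝ) (2 * π),
        ‖m.psi (Complex.exp (-(t : ℂ) * I)) - scPath N a c p t‖ ≤ η := by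
  have hcn : 0 < ‖c‖ := norm_pos_iff.2 hc
  have hε : 0 < η / (2 * π * ‖c‖) := by positivity
  have hsc := continuousOn_sc hN ha
  obtain ⟨δ, hδ, hδ'⟩ := Metric.uniformContinuousOn_iff.1
    ((isCompact_closedBall (0 : ℂ) 1).uniformContinuousOn_of_continuous hsc) _ hε
  obtain ⟨s, hs, hs1, hsδ⟩ : ∃ s : ℝ, 0 < s ∧ s < 1 ∧ 1 - s < δ :=
    ⟨max (1 / 2) (1 - δ / 2), lt_max_of_lt_left (by norm_num), max_lt (by norm_num) (by linarith),
      by linarith [le_max_right (1 / 2 : ℝ) (1 - δ / 2)]⟩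
  obtain ⟨m, hm, hpath⟩ := exists_model_aux hN ha hsum hs hs1 hc p
  refine ⟨m, hm, fun t ht => ?_⟩
  have hball : ∀ θ : ℝ, pt θ ∈ closedBall (0 : ℂ) 1 ∧ (s : ℂ) * pt θ ∈ closedBall (0 : ℂ) 1 :=
    fun θ => ⟨mem_closedBall_zero_iff.2 (norm_pt θ).le,
      mem_closedBall_zero_iff.2 (norm_smul_pt hs hs1 θ).le⟩
  have hint : ∀ (u : ℝ → ℂ), Continuous u → (∀ θ, u θ ∈ closedBall (0 : ℂ) 1) →
      IntervalIntegrable (fun θ : ℝ => I * c * Complex.exp ((θ : ℂ) * I) * sc N a (u θ))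
        MeasureTheory.volume 0 t := fun u hu hu' =>
    ((by fun_prop : Continuous fun θ : ℝ => I * c * Complex.exp ((θ : ℂ) * I)).mul
      (hsc.comp_continuous hu hu')).intervalIntegrable _ _
  change ‖m.psi (pt t) - (p + ∫ θ in (0 : ℝ)..t,
    I * c * Complex.exp ((θ : ℂ) * I) * sc N a (pt θ))‖ ≤ η
  rw [hpath t, add_sub_add_left_eq_sub, ← intervalIntegral.integral_sub
    (hint (fun θ => (s : ℂ) * pt θ) (continuous_const.mul continuous_pt) fun θ => (hball θ).2)
    (hint pt continuous_pt fun θ => (hball θ).1)]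
  refine (intervalIntegral.norm_integral_le_of_norm_le_const
    (C := ‖c‖ * (η / (2 * π * ‖c‖))) fun θ _ => ?_).trans ?_
  · rw [← mul_sub, norm_mul, norm_mul, norm_mul, norm_I, one_mul, Complex.norm_exp_ofReal_mul_I,
      mul_one, ← dist_eq_norm]
    refine mul_le_mul_of_nonneg_left (hδ' _ (hball θ).2 _ (hball θ).1 ?_).le hcn.le
    rw [dist_eq_norm, ← sub_one_mul, norm_mul, norm_pt, mul_one,
      show (s : ℂ) - 1 = ((s - 1 : ℝ) : ℂ) by push_cast; ring, Complex.norm_real,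
      Real.norm_eq_abs, abs_of_nonpos (by linarith)]
    linarith
  · rw [sub_zero, abs_of_nonneg ht.1]
    calc ‖c‖ * (η / (2 * π * ‖c‖)) * t ≤ ‖c‖ * (η / (2 * π * ‖c‖)) * (2 * π) :=
          mul_le_mul_of_nonneg_left ht.2 (by positivity)
      _ = η := by field_simp

end Vale.Agent.P123
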