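import Vale.Agent.P123.Model

/-!
Definitions shared by the modules of the proof for P123: the surrounding condition and the
Schwarz-Christoffel integrand of an equiangular polygon.
-/

noncomputable section

namespace Vale.Agent.P123

open Complex Metric Set
open scoped ComplexConjugate InnerProductSpace

variable {E : Type*} [NormedAddCommGroup E] [InnerProductSpace ℂ E]

/-- The curve of `m` surrounds the numerical range of `A`. -/
structure Surrounds (m : Model) (A : E →L[ℂ] E) : Prop where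
  pos : ∀ x : E, ‖x‖ = 1 → ∀ v : ℂ, ‖v‖ = 1 →
    0 ≤ ((m.psi v - ⟪x, A x⟫_ℂ) * conj (m.nrm v)).re
  ne : ∀ x : E, ‖x‖ = 1 → ∀ v : ℂ, ‖v‖ ≤ 1 → v ≠ 0 → m.psi v ≠ ⟪x, A x⟫_ℂ
  sep : ∀ v : ℂ, ‖v‖ < 1 → v ≠ 0 → ∃ d : ℂ, ∀ u : ℂ, ‖u‖ = 1 →
    0 < (d * (m.psi v - m.psi u)).re

/-- The outward normal directions of an equiangular `N`-gon. -/
def dir (N : ℕ) (j : ℕ) : ℂ := Complex.exp ((2 * Real.pi * (j / N : ℝ) : ℝ) * I)

/-- The Schwarz-Christoffel product for equal exterior angles `2π / N`. -/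
def sc (N : ℕ) (a : Fin N → ℂ) (v : ℂ) : ℂ := ∏ j, (1 - a j * v) ^ (((2 / N : ℝ)) : ℂ)

/-- The Schwarz-Christoffel path starting at `p`. -/
def scPath (N : ℕ) (a : Fin N → ℂ) (c p : ℂ) (t : ℝ) : ℂ :=
  p + ∫ θ in (0 : ℝ)..t, I * c * Complex.exp ((θ : ℂ) * I) * sc N a (Complex.exp (-(θ : ℂ) * I))

end Vale.Agent.P123
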