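import Vale.Agent.P123.Defs

/-!
Equiangular polygons around a compact convex set, within a prescribed distance of it.
-/

noncomputable section

namespace Vale.Agent.P123

open Complex Metric Set
open scoped ComplexConjugate Real

namespace Polygon

variable {N : ℕ}

/-- The angle between consecutive normals. -/
def ang (N : ℕ) : ℝ := 2 * π / N

theorem dir_periodic (hN : N ≠ 0) (j : ℕ) : dir N (j + N) = dir N j := by
  have hN' : (N : ℂ) ≠ 0 := Nat.cast_ne_zero.2 hN
  unfold dir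
  rw [show ((2 * π * ((j + N : ℕ) / N : ℝ) : ℝ) : ℂ) * I
      = ((2 * π * (j / N : ℝ) : ℝ) : ℂ) * I + ((1 : ℤ) : ℂ) * (2 * π * I) by
    push_cast; field_simp,
    Complex.exp_add, Complex.exp_int_mul_two_pi_mul_I, mul_one]

theorem dir_succ (N j : ℕ) :
    dir N (j + 1) = dir N j * Complex.exp ((ang N : ℂ) * I) := by
  rw [dir, dir, ← Complex.exp_add, ← add_mul, ← ofReal_add, ang]
  congr 3
  push_cast; ring

theorem norm_dir (N j : ℕ) : ‖dir N j‖ = 1 := Complex.norm_exp_ofReal_mul_I _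

theorem conj_dir_mul (N j : ℕ) (w : ℂ) : conj (dir N j) * (dir N j * w) = w := by
  rw [← mul_assoc, conj_mul', norm_dir]; simp

theorem dir_mul_conj (N j : ℕ) (w : ℂ) : dir N j * (conj (dir N j) * w) = w := by
  rw [← mul_assoc, mul_conj', norm_dir]; simp

theorem re_next (N j : ℕ) (z : ℂ) :
    (conj (dir N (j + 1)) * z).re = Real.cos (ang N) * (conj (dir N j) * z).re
      + Real.sin (ang N) * (conj (dir N j) * z).im := by
  rw [dir_succ, map_mul, mul_comm (conj (dir N j)), mul_assoc, mul_re, conj_re, conj_im,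
    Complex.exp_ofReal_mul_I_re, Complex.exp_ofReal_mul_I_im]
  ring

theorem re_prev (hN : N ≠ 0) (j : ℕ) (z : ℂ) :
    (conj (dir N (j + N - 1)) * z).re = Real.cos (ang N) * (conj (dir N j) * z).re
      - Real.sin (ang N) * (conj (dir N j) * z).im := by
  have e1 : dir N (j + N - 1) * Complex.exp ((ang N : ℂ) * I) = dir N j := by
    rw [← dir_succ, show j + N - 1 + 1 = j + N by omega, dir_periodic hN]
  have : conj (dir N (j + N - 1)) * z =
      Complex.exp ((ang N : ℂ) * I) * (conj (dir N j) * z) := by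
    have hu1 : conj (Complex.exp ((ang N : ℂ) * I)) * Complex.exp ((ang N : ℂ) * I) = 1 := by
      rw [conj_mul', Complex.norm_exp_ofReal_mul_I]; simp
    rw [← e1, map_mul]
    linear_combination -(conj (dir N (j + N - 1)) * z) * hu1
  rw [this, mul_re, Complex.exp_ofReal_mul_I_re, Complex.exp_ofReal_mul_I_im]

theorem exists_cone (hN : 3 ≤ N) {e : ℂ} (he : ‖e‖ = 1) :
    ∃ (j : ℕ) (ν μ : ℝ), 0 ≤ ν ∧ 0 ≤ μ ∧ 1 ≤ ν + μ ∧
      e = (ν : ℂ) * dir N j + (μ : ℂ) * dir N (j + 1) := by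
  have hNr : (0 : ℝ) < N := by exact_mod_cast (by omega : 0 < N)
  have hα0 : 0 < ang N := by unfold ang; positivity
  have hπ : ang N < π := by
    rw [ang, div_lt_iff₀ hNr]
    have : (3 : ℝ) ≤ N := by exact_mod_cast hN
    nlinarith [Real.pi_pos]
  have hS0 := Real.sin_pos_of_pos_of_lt_pi hα0 hπ
  set θ := toIcoMod Real.two_pi_pos 0 (Complex.arg e) with hθ
  have hθe : Complex.exp ((θ : ℂ) * I) = e := by
    have h := Complex.norm_mul_exp_arg_mul_I e
    rw [he, ofReal_one, one_mul] at h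
    rw [hθ, toIcoMod, zsmul_eq_mul, show (((Complex.arg e -
        (toIcoDiv Real.two_pi_pos 0 (Complex.arg e) : ℤ) * (2 * π) : ℝ) : ℂ)) * I
        = (Complex.arg e : ℂ) * I +
          ((-(toIcoDiv Real.two_pi_pos 0 (Complex.arg e)) : ℤ) : ℂ) * (2 * π * I) by
      push_cast; ring, Complex.exp_add, Complex.exp_int_mul_two_pi_mul_I, mul_one, h]
  have hθ0 : 0 ≤ θ := (toIcoMod_mem_Ico _ 0 _).1
  set j := ⌊θ / ang N⌋₊
  set r := θ - j * ang N with hr
  have hr0 : 0 ≤ r := by
    have := Nat.floor_le (div_nonneg hθ0 hα0.le)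
    rw [le_div_iff₀ hα0] at this
    linarith
  have hrα : r ≤ ang N := by
    have := Nat.lt_floor_add_one (θ / ang N)
    rw [div_lt_iff₀ hα0] at this
    linarith
  have hej : e = dir N j * Complex.exp ((r : ℂ) * I) := by
    rw [← hθe, dir, ← Complex.exp_add, ← add_mul, ← ofReal_add]
    congr 3
    rw [hr, ang]; field_simp; ring
  set μ := Real.sin r / Real.sin (ang N) with hμd
  set ν := Real.sin (ang N - r) / Real.sin (ang N) with hνd
  have hμ : 0 ≤ μ := div_nonneg (Real.sin_nonneg_of_nonneg_of_le_pi hr0 (by linarith)) hS0.le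
  have hν : 0 ≤ ν :=
    div_nonneg (Real.sin_nonneg_of_nonneg_of_le_pi (by linarith) (by linarith)) hS0.le
  have hd : e = (ν : ℂ) * dir N j + (μ : ℂ) * dir N (j + 1) := by
    have key : Complex.exp ((r : ℂ) * I) =
        (ν : ℂ) + (μ : ℂ) * Complex.exp ((ang N : ℂ) * I) := by
      apply Complex.ext
      · simp only [add_re, ofReal_re, re_ofReal_mul, Complex.exp_ofReal_mul_I_re, hμd, hνd,
          Real.sin_sub]
        field_simp
        ring
      · simp only [add_im, ofReal_im, im_ofReal_mul, Complex.exp_ofReal_mul_I_im, hμd]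
        field_simp
        ring
    rw [hej, dir_succ]
    linear_combination (dir N j) * key
  refine ⟨j, ν, μ, hν, hμ, ?_, hd⟩
  have := norm_add_le ((ν : ℂ) * dir N j) ((μ : ℂ) * dir N (j + 1))
  rwa [← hd, he, norm_mul, norm_mul, norm_dir, norm_dir, mul_one, mul_one, Complex.norm_real,
    Complex.norm_real, Real.norm_of_nonneg hν, Real.norm_of_nonneg hμ] at this

/-- The meet of two lines is close to the segment joining the two supporting points. -/
theorem meet_near {C S H₀ H₁ δ R : ℝ} (hS : 0 < S) (hC : 1 / 2 ≤ C) (hC1 : C ≤ 1)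
    (hcs : S ^ 2 + C ^ 2 = 1) (hδ : 0 ≤ δ) {p q : ℂ} (hpre : p.re = H₁)
    (hp : C * p.re - S * p.im ≤ H₀) (hqre : q.re ≤ H₁) (hq : C * q.re - S * q.im = H₀)
    (hpR : ‖p‖ ≤ R) (hqR : ‖q‖ ≤ R) :
    ∃ a b : ℝ, 0 ≤ a ∧ 0 ≤ b ∧ a + b = 1 ∧
      ‖((H₁ + δ : ℝ) : ℂ) + (((C * (H₁ + δ) - (H₀ + δ)) / S : ℝ) : ℂ) * I
        - ((a : ℂ) * p + (b : ℂ) * q)‖ ≤ 2 * δ + 4 * (S * R) := by
  set y := (C * H₁ - H₀) / S with hy
  have h1 : y ≤ p.im := by
    rw [hy, div_le_iff₀ hS, ← hpre]; linarith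
  have h2 : q.im ≤ y := by
    rw [hy, le_div_iff₀ hS]
    linarith [mul_le_mul_of_nonneg_left hqre (by linarith : 0 ≤ C)]
  obtain ⟨a, b, ha, hb, hab, hy'⟩ : y ∈ segment ℝ p.im q.im := by
    rw [segment_symm, segment_eq_Icc (h2.trans h1)]; exact ⟨h2, h1⟩
  simp only [smul_eq_mul] at hy'
  refine ⟨a, b, ha, hb, hab, ?_⟩
  refine (norm_le_abs_re_add_abs_im _).trans ?_
  simp only [sub_re, sub_im, add_re, add_im, ofReal_re, ofReal_im, re_ofReal_mul, im_ofReal_mul,
    I_re, I_im, mul_zero, mul_one, add_zero, zero_add, hy', hpre]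
  have him : (C * (H₁ + δ) - (H₀ + δ)) / S - y = -(δ * ((1 - C) / S)) := by
    rw [hy]; field_simp; ring
  have hre : H₁ + δ - (a * H₁ + b * q.re) = δ + b * (H₁ - q.re) := by
    linear_combination -H₁ * hab
  have ht : (1 - C) / S ≤ 1 := by
    rw [div_le_one hS]
    nlinarith
  have ht0 : 0 ≤ (1 - C) / S := div_nonneg (by linarith) hS.le
  have hb0 : 0 ≤ b * (H₁ - q.re) := mul_nonneg hb (by linarith)
  rw [him, abs_neg, hre, abs_of_nonneg (mul_nonneg hδ ht0), abs_of_nonneg (add_nonneg hδ hb0)]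
  have h3 : δ * ((1 - C) / S) ≤ δ := mul_le_of_le_one_right hδ ht
  have h4 : (H₁ - q.re) * C = S * (y - q.im) := by
    rw [hy, mul_sub S, mul_div_cancel₀ _ hS.ne']; linarith
  have h5 : y - q.im ≤ 2 * R := by
    linarith [(abs_le.1 ((Complex.abs_im_le_norm p).trans hpR)).2,
      (abs_le.1 ((Complex.abs_im_le_norm q).trans hqR)).1]
  have h6 := mul_le_mul_of_nonneg_left h5 hS.le
  have h7 : (H₁ - q.re) * (1 / 2) ≤ (H₁ - q.re) * C :=
    mul_le_mul_of_nonneg_left hC (by linarith)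
  have h8 : b * (H₁ - q.re) ≤ H₁ - q.re := mul_le_of_le_one_left (by linarith) (by linarith)
  linarith

end Polygon

open Vale.Agent.P123.Polygon in
/-- A compact convex set lies strictly inside equiangular polygons close to it. -/
theorem exists_polygon {K : Set ℂ} (hK : IsCompact K) (hne : K.Nonempty) (hc : Convex ℝ K) {ε : ℝ}
    (hε : 0 < ε) :
    ∃ (N : ℕ) (V : ℕ → ℂ) (L : ℕ → ℝ) (δ : ℝ), 3 ≤ N ∧ 0 < δ ∧ (∀ j, 0 < L j) ∧
      (∀ j, V (j + N) = V j) ∧ (∀ j, V (j + 1) = V j + (L j : ℂ) * (I * dir N j)) ∧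
      convexHull ℝ (range V) ⊆ cthickening ε K ∧
      ∀ e : ℂ, ‖e‖ = 1 → ∀ z ∈ K, ∃ j, (conj e * z).re + δ ≤ (conj e * V j).re := by
  choose Z hZK hZ using fun d : ℂ => hK.exists_isMaxOn hne
    ((by fun_prop : Continuous fun z : ℂ => (conj d * z).re).continuousOn)
  obtain ⟨R₀, hR₀⟩ := hK.isBounded.subset_closedBall (0 : ℂ)
  set R := max R₀ 1
  have hR0 : 0 < R := lt_max_of_lt_right one_pos
  set η : ℝ := min 1 (ε / (8 * R))
  have hη0 : 0 < η := lt_min one_pos (by positivity)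
  obtain ⟨N₀, hN₀⟩ := exists_nat_gt (2 * π / η)
  obtain ⟨N, hN, hN₀N⟩ : ∃ N : ℕ, 3 ≤ N ∧ N₀ ≤ N := ⟨max 3 N₀, le_max_left _ _, le_max_right _ _⟩
  have hN0 : N ≠ 0 := by omega
  have hNr : (0 : ℝ) < N := by exact_mod_cast (by omega : 0 < N)
  have hα0 : 0 < ang N := by unfold ang; positivity
  have hαη : ang N ≤ η := by
    have h1 : 2 * π / η ≤ N := hN₀.le.trans (by exact_mod_cast hN₀N)
    rw [ang, div_le_iff₀ hNr]
    rw [div_le_iff₀ hη0] at h1
    linarith
  have hα1 : ang N ≤ 1 := hαη.trans (min_le_left _ _)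
  set C := Real.cos (ang N) with hC
  set S := Real.sin (ang N) with hS
  have hS0 : 0 < S := Real.sin_pos_of_pos_of_lt_pi hα0 (by linarith [Real.pi_gt_three])
  have hcs : S ^ 2 + C ^ 2 = 1 := Real.sin_sq_add_cos_sq (ang N)
  have hChalf : 1 / 2 ≤ C := by
    have := Real.one_sub_sq_div_two_le_cos (x := ang N)
    nlinarith
  have hC1 : C < 1 := by
    refine (Real.cos_le_one (ang N)).lt_of_ne fun h => ?_
    rw [← hC] at h
    rw [h] at hcs
    nlinarith
  set H : ℕ → ℝ := fun j => (conj (dir N j) * Z (dir N j)).re with hH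
  have hmax : ∀ j, ∀ z ∈ K, (conj (dir N j) * z).re ≤ H j := fun j z hz => hZ (dir N j) hz
  have hHper : ∀ j, H (j + N) = H j := fun j => by simp [hH, dir_periodic hN0]
  set δ := ε / 4 with hδ
  set W : ℕ → ℂ := fun j => ((H j + δ : ℝ) : ℂ) +
    (((C * (H j + δ) - (H (j + N - 1) + δ)) / S : ℝ) : ℂ) * I with hW
  set L : ℕ → ℝ := fun j => (H (j + 1) + H (j + N - 1) - 2 * C * H j + 2 * δ * (1 - C)) / S
    with hL
  have hstep : ∀ j, dir N (j + 1) * W (j + 1) = dir N j * W j + (L j : ℂ) * (I * dir N j) := by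
    intro j
    have e : H (j + 1 + N - 1) = H j := by
      rw [show j + 1 + N - 1 = j + N by omega]; exact hHper j
    have key : Complex.exp ((ang N : ℂ) * I) * W (j + 1) = W j + (L j : ℂ) * I := by
      simp only [hW, hL, e]
      apply Complex.ext
      · simp only [mul_re, add_re, add_im, Complex.exp_ofReal_mul_I_re,
          Complex.exp_ofReal_mul_I_im, ← hC, ← hS, ofReal_re, ofReal_im, im_ofReal_mul, I_re, I_im]
        field_simp
        ring
      · simp only [mul_im, add_re, add_im, Complex.exp_ofReal_mul_I_re,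
          Complex.exp_ofReal_mul_I_im, ← hC, ← hS, ofReal_re, ofReal_im, re_ofReal_mul, I_re, I_im]
        field_simp
        linear_combination (H (j + 1) + δ) * hcs
    rw [dir_succ]
    linear_combination (dir N j) * key
  refine ⟨N, fun j => dir N j * W j, L, δ, hN, by positivity, fun j => ?_, fun j => ?_, hstep,
    ?_, fun e he z hz => ?_⟩
  · refine div_pos ?_ hS0
    have h1 := hmax (j + 1) _ (hZK (dir N j))
    have h2 := hmax (j + N - 1) _ (hZK (dir N j))
    rw [re_next, ← hC, ← hS] at h1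
    rw [re_prev hN0, ← hC, ← hS] at h2
    have h3 : 0 < δ * (1 - C) := mul_pos (by positivity) (by linarith)
    have h4 : (conj (dir N j) * Z (dir N j)).re = H j := rfl
    rw [h4] at h1 h2
    linarith
  · simp only [hW]
    rw [dir_periodic hN0, hHper, show j + N + N - 1 = (j + N - 1) + N by omega, hHper]
  · refine convexHull_min ?_ (hc.cthickening ε)
    rintro _ ⟨j, rfl⟩
    have hbd : ∀ d i, ‖conj (dir N i) * Z d‖ ≤ R := fun d i => by
      rw [norm_mul, norm_conj, norm_dir, one_mul]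
      exact (mem_closedBall_zero_iff.1 (hR₀ (hZK d))).trans (le_max_left _ _)
    obtain ⟨a, b, ha, hb, hab, hle⟩ := meet_near (p := conj (dir N j) * Z (dir N j))
      (q := conj (dir N j) * Z (dir N (j + N - 1))) (H₀ := H (j + N - 1)) (δ := δ) hS0 hChalf
      hC1.le hcs (by positivity) rfl (by rw [← re_prev hN0]; exact hmax _ _ (hZK _))
      (hmax j _ (hZK _)) (by rw [← re_prev hN0]) (hbd _ j) (hbd _ j)
    refine mem_cthickening_of_dist_le _
      ((a : ℂ) * Z (dir N j) + (b : ℂ) * Z (dir N (j + N - 1))) _ _ ?_ ?_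
    · simpa [Complex.real_smul] using hc (hZK (dir N j)) (hZK (dir N (j + N - 1))) ha hb hab
    rw [dist_eq_norm]
    have e : dir N j * W j - ((a : ℂ) * Z (dir N j) + (b : ℂ) * Z (dir N (j + N - 1))) =
        dir N j * (W j - ((a : ℂ) * (conj (dir N j) * Z (dir N j))
          + (b : ℂ) * (conj (dir N j) * Z (dir N (j + N - 1))))) := by
      have h1 : dir N j * conj (dir N j) = 1 := by rw [mul_conj', norm_dir]; simp
      linear_combination ((a : ℂ) * Z (dir N j) + (b : ℂ) * Z (dir N (j + N - 1))) * h1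
    rw [e, norm_mul, norm_dir, one_mul]
    refine hle.trans ?_
    have h2 : S * R ≤ ε / (8 * R) * R := mul_le_mul_of_nonneg_right
      ((Real.sin_le hα0.le).trans (hαη.trans (min_le_right _ _))) hR0.le
    have h3 : ε / (8 * R) * R = ε / 8 := by field_simp
    linarith
  · obtain ⟨j, ν, μ, hν, hμ, hsum, hd⟩ := exists_cone hN he
    refine ⟨j + 1, ?_⟩
    have hl1 : (conj (dir N (j + 1)) * (dir N (j + 1) * W (j + 1))).re = H (j + 1) + δ := by
      rw [conj_dir_mul]; simp [hW]
    have hl0 : (conj (dir N j) * (dir N (j + 1) * W (j + 1))).re = H j + δ := by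
      rw [hstep, mul_add, conj_dir_mul, add_re, mul_left_comm (conj (dir N j)) (L j : ℂ),
        mul_left_comm (conj (dir N j)) I, conj_mul', norm_dir]
      simp [hW]
    have hz0 := mul_le_mul_of_nonneg_left (hmax j z hz) hν
    have hz1 := mul_le_mul_of_nonneg_left (hmax (j + 1) z hz) hμ
    have hs := mul_le_mul_of_nonneg_left hsum (by positivity : (0 : ℝ) ≤ δ)
    simp only [hd, map_add, map_mul, conj_ofReal, add_mul, add_re, mul_assoc, re_ofReal_mul,
      hl0, hl1]
    linarith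

end Vale.Agent.P123
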