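import Mathlib

/-!
Elementary reductions for P123: convexity of the numerical range, compression to a Krylov space,
singular pairs, and the lower bound `2`.
-/

noncomputable section

namespace Vale.Agent.P123

open Complex Metric Set Polynomial
open scoped ComplexConjugate InnerProductSpace

variable {H : Type*} [NormedAddCommGroup H] [InnerProductSpace ℂ H]

/-- The numerical range. -/
def numRange (A : H →L[ℂ] H) : Set ℂ := {z | ∃ x : H, ‖x‖ = 1 ∧ ⟪x, A x⟫_ℂ = z}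

/-- Toeplitz-Hausdorff. -/
theorem convex_numRange (A : H →L[ℂ] H) : Convex ℝ (numRange A) := by
  rintro z₁ ⟨x₁, h₁, rfl⟩ z₂ ⟨x₂, h₂, rfl⟩ a b ha hb hab
  set q₁ := ⟪x₁, A x₁⟫_ℂ with hq₁
  set q₂ := ⟪x₂, A x₂⟫_ℂ with hq₂
  by_cases hz : q₁ = q₂
  · refine ⟨x₁, h₁, ?_⟩
    rw [← hz, ← add_smul, hab, one_smul]
  set d := q₂ - q₁ with hd
  have hd0 : d ≠ 0 := sub_ne_zero.2 (Ne.symm hz)
  set B : H → H := fun x => d⁻¹ • (A x - q₁ • x) with hB
  set b₁ := ⟪x₁, B x₂⟫_ℂ with hb₁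
  set b₂ := ⟪x₂, B x₁⟫_ℂ with hb₂
  obtain ⟨l, hl, hlim⟩ : ∃ l : ℂ, ‖l‖ = 1 ∧ (l * (b₁ - conj b₂)).im = 0 := by
    by_cases hw : b₁ - conj b₂ = 0
    · exact ⟨1, by simp, by simp [hw]⟩
    · refine ⟨conj (b₁ - conj b₂) / (‖b₁ - conj b₂‖ : ℂ), ?_, ?_⟩
      · rw [norm_div, norm_conj, Complex.norm_real, norm_norm, div_self (norm_ne_zero_iff.2 hw)]
      · rw [div_mul_eq_mul_div, ← normSq_eq_conj_mul_self, ← ofReal_div]
        simp
  have i1 : ⟪x₁, x₁⟫_ℂ = 1 := by simp [inner_self_eq_norm_sq_to_K, h₁]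
  have i2 : ⟪x₂, x₂⟫_ℂ = 1 := by simp [inner_self_eq_norm_sq_to_K, h₂]
  have e1 : ⟪x₁, B x₁⟫_ℂ = 0 := by
    simp only [hB, inner_sub_right, inner_smul_right]
    rw [← hq₁, i1, mul_one, sub_self, mul_zero]
  have e2 : ⟪x₂, B x₂⟫_ℂ = 1 := by
    simp only [hB, inner_sub_right, inner_smul_right]
    rw [← hq₂, i2, mul_one, ← hd, inv_mul_cancel₀ hd0]
  set v : ℝ → H := fun t => ((1 - t : ℝ) : ℂ) • x₁ + ((t : ℂ) * l) • x₂ with hv
  have hv0 : ∀ t, v t ≠ 0 := by
    intro t h0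
    by_cases ht : t = 0
    · subst ht
      simp [hv] at h0
      simp [h0] at h₁
    · have htl : (t : ℂ) * l ≠ 0 :=
        mul_ne_zero (by exact_mod_cast ht) (norm_ne_zero_iff.1 (by simp [hl]))
      set μ : ℂ := -(((t : ℂ) * l)⁻¹ * ((1 - t : ℝ) : ℂ)) with hμ
      have hx : x₂ = μ • x₁ := by
        apply smul_right_injective H htl
        simp only [hμ, neg_smul, smul_neg]
        rw [smul_smul ((t : ℂ) * l), ← mul_assoc, mul_inv_cancel₀ htl, one_mul]
        exact eq_neg_of_add_eq_zero_right h0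
      apply hz
      have hm : conj μ * μ = 1 := by
        rw [← normSq_eq_conj_mul_self, ← Complex.sq_norm]
        have := h₂
        rw [hx, norm_smul, h₁, mul_one] at this
        simp [this]
      rw [hq₂, hx, map_smul, inner_smul_left, inner_smul_right, ← mul_assoc, hm, one_mul, hq₁]
  have hreal : ∀ t, (⟪v t, B (v t)⟫_ℂ).im = 0 := by
    intro t
    have e : ⟪v t, B (v t)⟫_ℂ = (((1 - t) * t : ℝ) : ℂ) * (l * b₁ + conj l * b₂)
        + ((t * t : ℝ) : ℂ) * (conj l * l) := by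
      simp only [hb₁, hb₂, hB, hv, map_add, map_smul, inner_add_left, inner_add_right,
        inner_sub_right, inner_smul_left, inner_smul_right, map_mul, conj_ofReal, smul_add,
        i1, i2] at e1 e2 ⊢
      push_cast
      linear_combination ((1 : ℂ) - t) ^ 2 * e1 + (t : ℂ) ^ 2 * (conj l * l) * e2
    rw [e, ← normSq_eq_conj_mul_self, ← ofReal_mul, add_im, im_ofReal_mul, ofReal_im, add_zero]
    have : (l * b₁ + conj l * b₂).im = (l * (b₁ - conj b₂)).im := by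
      simp [mul_im]; ring
    rw [this, hlim, mul_zero]
  set g : ℝ → ℝ := fun t => (⟪v t, B (v t)⟫_ℂ).re / ‖v t‖ ^ 2 with hg
  have hgc : Continuous g := by
    refine Continuous.div ?_ (by fun_prop) fun t => pow_ne_zero 2 (norm_ne_zero_iff.2 (hv0 t))
    simp only [hB, hv]
    fun_prop
  have g0 : g 0 = 0 := by simp [hg, hv, e1]
  have g1 : g 1 = 1 := by
    have : B (l • x₂) = l • B x₂ := by simp [hB, smul_sub, smul_comm l]
    have hll : (l.re * l.re + l.im * l.im) = 1 := by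
      rw [← normSq_apply, ← Complex.sq_norm, hl, one_pow]
    simp [hg, hv, this, inner_smul_left, inner_smul_right, e2, norm_smul, hl, h₂,
      ← normSq_eq_conj_mul_self, ← Complex.sq_norm, hll]
  obtain ⟨t, -, ht⟩ := intermediate_value_Icc zero_le_one hgc.continuousOn
    (by rw [g0, g1]; exact ⟨hb, by linarith⟩ : b ∈ Icc (g 0) (g 1))
  have hn : ‖v t‖ ≠ 0 := norm_ne_zero_iff.2 (hv0 t)
  refine ⟨(‖v t‖⁻¹ : ℂ) • v t, by simp [norm_smul, hn], ?_⟩
  have hq : ⟪v t, B (v t)⟫_ℂ = ((b * ‖v t‖ ^ 2 : ℝ) : ℂ) := by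
    apply Complex.ext
    · rw [ofReal_re, ← ht, hg]; field_simp
    · rw [ofReal_im, hreal]
  simp only [hB, inner_smul_right, inner_sub_right, inner_self_eq_norm_sq_to_K] at hq
  rw [map_smul, inner_smul_left, inner_smul_right]
  have hn' : (‖v t‖ : ℂ) ≠ 0 := by exact_mod_cast hn
  have ha' : a = 1 - b := by linarith
  subst ha'
  simp only [map_inv₀, conj_ofReal, Complex.real_smul, Complex.coe_algebraMap, ofReal_mul,
    ofReal_pow, ofReal_sub, ofReal_one] at hq ⊢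
  field_simp at hq ⊢
  linear_combination hq

theorem isCompact_numRange [FiniteDimensional ℂ H] (A : H →L[ℂ] H) : IsCompact (numRange A) := by
  have : numRange A = (fun x => ⟪x, A x⟫_ℂ) '' sphere (0 : H) 1 := by
    ext z; simp [numRange]
  rw [this]
  haveI : ProperSpace H := FiniteDimensional.proper ℂ H
  exact (isCompact_sphere _ _).image (by fun_prop)

theorem nonempty_numRange [Nontrivial H] (A : H →L[ℂ] H) : (numRange A).Nonempty := by
  obtain ⟨x, hx⟩ := exists_norm_eq H zero_le_one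
  exact ⟨_, x, hx, rfl⟩

/-- A top singular pair. -/
theorem exists_singular_pair [FiniteDimensional ℂ H] {T : H →L[ℂ] H} (hT : T ≠ 0) :
    ∃ x y : H, ‖x‖ = 1 ∧ T x = (‖T‖ : ℂ) • y ∧ ∀ z, ⟪y, T z⟫_ℂ = (‖T‖ : ℂ) * ⟪x, z⟫_ℂ := by
  haveI : ProperSpace H := FiniteDimensional.proper ℂ H
  obtain ⟨z₀, hz₀⟩ : ∃ z, T z ≠ 0 := by
    by_contra! h
    exact hT (ContinuousLinearMap.ext fun z => by simp [h])
  haveI : Nontrivial H := ⟨⟨z₀, 0, fun h => hz₀ (by simp [h])⟩⟩
  obtain ⟨x, hx, hmax⟩ := (isCompact_sphere (0 : H) 1).exists_isMaxOn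
    (NormedSpace.sphere_nonempty.2 zero_le_one) (f := fun x => ‖T x‖) (by fun_prop)
  rw [mem_sphere_zero_iff_norm] at hx
  have hC : ‖T x‖ = ‖T‖ := by
    refine le_antisymm (T.unit_le_opNorm x hx.le) (T.opNorm_le_of_unit_norm (norm_nonneg _)
      fun z hz => ?_)
    exact hmax (mem_sphere_zero_iff_norm.2 hz)
  have hT0 : (0 : ℝ) < ‖T‖ := norm_pos_iff.2 hT
  have hT0' : (‖T‖ : ℂ) ≠ 0 := by exact_mod_cast hT0.ne'
  refine ⟨x, (‖T‖ : ℂ)⁻¹ • T x, hx, by rw [smul_smul, mul_inv_cancel₀ hT0', one_smul], fun z => ?_⟩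
  have key : T.adjoint (T x) = ((‖T‖ ^ 2 : ℝ) : ℂ) • x := by
    rw [← sub_eq_zero, ← norm_eq_zero]
    have h1 : ‖T.adjoint (T x)‖ ≤ ‖T‖ ^ 2 := by
      refine (T.adjoint.le_opNorm _).trans ?_
      rw [LinearIsometryEquiv.norm_map, hC, sq]
    have h2 : ‖T.adjoint (T x) - ((‖T‖ ^ 2 : ℝ) : ℂ) • x‖ ^ 2 ≤ 0 := by
      rw [norm_sub_sq (𝕜 := ℂ), inner_smul_right, ContinuousLinearMap.adjoint_inner_left,
        inner_self_eq_norm_sq_to_K, norm_smul, hx, hC]
      simp only [Complex.coe_algebraMap, mul_one, Complex.norm_real, Real.norm_eq_abs,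
        ← ofReal_pow, ← ofReal_mul, RCLike.re_to_complex, ofReal_re, sq_abs]
      nlinarith [mul_self_le_mul_self (norm_nonneg (T.adjoint (T x))) h1]
    exact pow_eq_zero_iff two_ne_zero |>.1 (le_antisymm h2 (sq_nonneg _))
  rw [inner_smul_left, ← ContinuousLinearMap.adjoint_inner_left, key, inner_smul_left]
  simp only [map_inv₀, map_pow, conj_ofReal, ofReal_pow]
  field_simp

/-- Compression to a finite-dimensional space reproducing one value of a polynomial. -/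
theorem compress (A : H →L[ℂ] H) (P : ℂ[X]) (x : H) :
    ∃ (V : Submodule ℂ H) (_ : FiniteDimensional ℂ V) (B : V →L[ℂ] V) (x' : V),
      (x' : H) = x ∧ numRange B ⊆ numRange A ∧ ((aeval B P x' : V) : H) = aeval A P x := by
  classical
  set d := P.natDegree
  set V : Submodule ℂ H := Submodule.span ℂ (range fun k : Fin (d + 1) => (A ^ (k : ℕ)) x) with hV
  haveI : FiniteDimensional ℂ V := FiniteDimensional.span_of_finite ℂ (finite_range _)
  have hmem : ∀ k, k ≤ d → (A ^ k) x ∈ V := fun k hk =>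
    Submodule.subset_span ⟨⟨k, Nat.lt_succ_of_le hk⟩, rfl⟩
  set B : V →L[ℂ] V := V.orthogonalProjectionOnto ∘L A ∘L V.subtypeL with hB
  set x' : V := ⟨x, by simpa using hmem 0 (Nat.zero_le _)⟩ with hx'
  have hpow : ∀ k, k ≤ d → (((B ^ k) x' : V) : H) = (A ^ k) x := by
    intro k
    induction k with
    | zero => simp [hx']
    | succ k ih =>
      intro hk
      have h1 := ih (Nat.le_of_succ_le hk)
      rw [pow_succ', pow_succ']
      simp only [mul_apply_eq_comp]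
      have hm : A ((A ^ k) x) ∈ V := by
        simpa [pow_succ'] using hmem (k + 1) hk
      rw [← h1] at hm ⊢
      exact Submodule.starProjection_eq_self_iff.2 hm
  refine ⟨V, inferInstance, B, x', rfl, ?_, ?_⟩
  · rintro z ⟨w, hw, rfl⟩
    refine ⟨(w : H), by simpa using hw, ?_⟩
    simp only [hB, ContinuousLinearMap.comp_apply, Submodule.subtypeL_apply]
    rw [Submodule.inner_orthogonalProjectionOnto_eq_of_mem_left]
  · rw [aeval_eq_sum_range, aeval_eq_sum_range]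
    simp only [sum_apply, smul_apply, Submodule.coe_sum, Submodule.coe_smul_of_tower]
    refine Finset.sum_congr rfl fun k hk => ?_
    rw [hpow k (Nat.lt_succ_iff.1 (Finset.mem_range.1 hk))]

/-- The constant cannot be smaller than `2`, witnessed by an orthonormal pair. -/
theorem two_le_of_bound {e₀ e₁ : H} (h₀ : ‖e₀‖ = 1) (h₁ : ‖e₁‖ = 1) (h01 : ⟪e₀, e₁⟫_ℂ = 0)
    {C : ℝ}
    (hC : ∀ (A : H →L[ℂ] H) (P : ℂ[X]) (M : ℝ), (∀ x : H, ‖x‖ = 1 → ‖P.eval ⟪x, A x⟫_ℂ‖ ≤ M) →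
      ‖aeval A P‖ ≤ C * M) : 2 ≤ C := by
  set A : H →L[ℂ] H := (innerSL ℂ e₁).smulRight e₀ with hA
  have hne : ∀ x : H, ‖x‖ = 1 → ‖(X : ℂ[X]).eval ⟪x, A x⟫_ℂ‖ ≤ 1 / 2 := by
    intro x hx
    have horth : Orthonormal ℂ ![e₀, e₁] := by
      rw [orthonormal_iff_ite]
      intro i j
      fin_cases i <;> fin_cases j <;>
        simp [inner_self_eq_norm_sq_to_K, h₀, h₁, h01, inner_eq_zero_symm.1 h01]
    have h := horth.sum_inner_products_le (x := x) (s := Finset.univ)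
    simp [Fin.sum_univ_two, hx] at h
    simp only [eval_X, hA, ContinuousLinearMap.smulRight_apply, inner_smul_right,
      innerSL_apply_apply, norm_mul, norm_inner_symm x e₀]
    nlinarith [sq_nonneg (‖⟪e₀, x⟫_ℂ‖ - ‖⟪e₁, x⟫_ℂ‖)]
  have h1 := hC A X (1 / 2) hne
  rw [aeval_X] at h1
  have h2 : 1 ≤ ‖A‖ := by
    have := A.unit_le_opNorm e₁ h₁.le
    simpa [hA, inner_self_eq_norm_sq_to_K, h₁, h₀] using this
  linarith

end Vale.Agent.P123
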