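import Vale.Agent.P123.Defs
import Vale.Agent.Common.Brouwer

/-!
Every equiangular polygon is the image of the unit circle under a Schwarz-Christoffel map:
the prevertices are found with Brouwer's fixed point theorem on the simplex of arc lengths.
-/

noncomputable section

namespace Vale.Agent.P123

open Complex Metric Set MeasureTheory Filter Topology
open scoped ComplexConjugate Real

namespace Sc

variable {N : ℕ}

/-- The coordinates of a point of the simplex, indexed by naturals. -/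
def ext (τ : Fin N → ℝ) (j : ℕ) : ℝ := if h : j < N then τ ⟨j, h⟩ else 0

/-- The argument of the `k`-th prevertex. -/
def ang (τ : Fin N → ℝ) (k : ℕ) : ℝ := 2 * π * ∑ j ∈ Finset.range k, ext τ j

/-- The modulus of the Schwarz-Christoffel integrand. -/
def mag (τ : Fin N → ℝ) (θ : ℝ) : ℝ :=
  ∏ j : Fin N, (2 * |Real.sin ((θ - ang τ j) / 2)|) ^ (2 / N : ℝ)

/-- The length of the `k`-th side. -/
def len (τ : Fin N → ℝ) (k : ℕ) : ℝ :=
  (∫ θ in (0 : ℝ)..ang τ (k + 1), mag τ θ) - ∫ θ in (0 : ℝ)..ang τ k, mag τ θ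

/-- The prevertices. -/
def pre (τ : Fin N → ℝ) (j : Fin N) : ℂ := Complex.exp ((ang τ j : ℂ) * I)

/-- The leading coefficient that makes the first side point in direction `I`. -/
def coef (τ : Fin N → ℝ) (r : ℝ) : ℂ :=
  (r : ℂ) * Complex.exp ((-(π + (∑ j : Fin N, ang τ j) / N + 2 * π / N) : ℝ) * I)

theorem ang_zero (τ : Fin N → ℝ) : ang τ 0 = 0 := by simp [ang]

theorem ang_succ (τ : Fin N → ℝ) (k : ℕ) : ang τ (k + 1) = ang τ k + 2 * π * ext τ k := by
  simp [ang, Finset.sum_range_succ, mul_add]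

theorem ang_last {τ : Fin N → ℝ} (h : ∑ j, τ j = 1) : ang τ N = 2 * π := by
  unfold ang
  rw [← Fin.sum_univ_eq_sum_range (ext τ) N]
  have : ∀ j : Fin N, ext τ (j : ℕ) = τ j := fun j => by simp [ext, j.2]
  simp [this, h]

theorem ext_nonneg {τ : Fin N → ℝ} (h : ∀ j, 0 ≤ τ j) (j : ℕ) : 0 ≤ ext τ j := by
  unfold ext; split
  · exact h _
  · exact le_rfl

theorem ang_mono {τ : Fin N → ℝ} (h : ∀ j, 0 ≤ τ j) : Monotone (ang τ) :=
  monotone_nat_of_le_succ fun k => by
    rw [ang_succ]; nlinarith [ext_nonneg h k, Real.pi_pos]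

theorem continuous_ang (k : ℕ) : Continuous fun τ : Fin N → ℝ => ang τ k := by
  unfold ang ext
  refine continuous_const.mul (continuous_finsetSum _ fun j _ => ?_)
  split
  · exact continuous_apply _
  · exact continuous_const

theorem continuous_mag : Continuous fun p : (Fin N → ℝ) × ℝ => mag p.1 p.2 := by
  unfold mag
  refine continuous_finsetProd _ fun j _ => ?_
  refine Continuous.rpow_const ?_ fun _ => Or.inr (by positivity)
  have := (continuous_ang (N := N) (j : ℕ)).comp (continuous_fst (Y := ℝ))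
  exact continuous_const.mul (Real.continuous_sin.comp
    ((continuous_snd.sub this).div_const 2)).abs

theorem continuous_mag' (τ : Fin N → ℝ) : Continuous (mag τ) :=
  Continuous.comp (g := fun p : (Fin N → ℝ) × ℝ => mag p.1 p.2) (f := fun θ => (τ, θ))
    continuous_mag (continuous_const.prodMk continuous_id)

theorem mag_nonneg (τ : Fin N → ℝ) (θ : ℝ) : 0 ≤ mag τ θ :=
  Finset.prod_nonneg fun _ _ => Real.rpow_nonneg (by positivity) _

theorem continuous_len (k : ℕ) : Continuous fun τ : Fin N → ℝ => len τ k :=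
  (intervalIntegral.continuous_parametric_intervalIntegral_of_continuous (f := mag)
    continuous_mag (continuous_ang _)).sub
  (intervalIntegral.continuous_parametric_intervalIntegral_of_continuous (f := mag)
    continuous_mag (continuous_ang _))

theorem len_eq (τ : Fin N → ℝ) (k : ℕ) :
    len τ k = ∫ θ in ang τ k..ang τ (k + 1), mag τ θ :=
  intervalIntegral.integral_interval_sub_left ((continuous_mag' τ).intervalIntegrable _ _)
    ((continuous_mag' τ).intervalIntegrable _ _)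

theorem len_nonneg {τ : Fin N → ℝ} (h : ∀ j, 0 ≤ τ j) (k : ℕ) : 0 ≤ len τ k := by
  rw [len_eq]
  exact intervalIntegral.integral_nonneg (ang_mono h (Nat.le_succ k)) fun θ _ => mag_nonneg τ θ

theorem len_eq_zero {τ : Fin N → ℝ} (k : Fin N) (hk : τ k = 0) : len τ k = 0 := by
  rw [len_eq, ang_succ]
  simp [ext, k.2, hk]

theorem len_pos {τ : Fin N → ℝ} (h : ∀ j, 0 ≤ τ j) (h1 : ∑ j, τ j = 1) (k : Fin N)
    (hk : 0 < τ k) : 0 < len τ k := by
  rw [len_eq]
  refine intervalIntegral.intervalIntegral_pos_of_pos_on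
    ((continuous_mag' τ).intervalIntegrable _ _) (fun θ hθ => ?_) ?_
  · refine Finset.prod_pos fun j _ => Real.rpow_pos_of_pos ?_ _
    have h0 : 0 ≤ ang τ j := ang_zero τ ▸ ang_mono h (Nat.zero_le _)
    have h2 : ang τ j ≤ 2 * π := ang_last h1 ▸ ang_mono h j.2.le
    have h3 : ang τ (k + 1) ≤ 2 * π := ang_last h1 ▸ ang_mono h k.2
    have h4 : 0 ≤ ang τ k := ang_zero τ ▸ ang_mono h (Nat.zero_le _)
    refine mul_pos two_pos (abs_pos.2 ?_)
    rcases le_or_gt (j : ℕ) k with hjk | hjk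
    · have := ang_mono h hjk
      exact (Real.sin_pos_of_pos_of_lt_pi (by linarith [hθ.1]) (by linarith [hθ.2])).ne'
    · have := ang_mono h (Nat.succ_le_of_lt hjk)
      exact (Real.sin_neg_of_neg_of_neg_pi_lt (by linarith [hθ.2]) (by linarith [hθ.1])).ne
  · rw [ang_succ]
    simp only [ext, k.2, dite_true, Fin.eta]
    nlinarith [Real.pi_pos]

theorem exists_len (hN : 0 < N) (L : Fin N → ℝ) (hL : ∀ j, 0 < L j) :
    ∃ τ : Fin N → ℝ, (∀ j, 0 < τ j) ∧ ∑ j, τ j = 1 ∧
      ∃ r : ℝ, 0 < r ∧ ∀ j : Fin N, r * len τ j = L j := by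
  have : NeZero N := ⟨hN.ne'⟩
  set K := stdSimplex ℝ (Fin N)
  have hT : 0 < ∑ j, L j := Finset.sum_pos (fun j _ => hL j) Finset.univ_nonempty
  have htot : ∀ τ ∈ K, 0 < ∑ j : Fin N, len τ j := by
    intro τ hτ
    obtain ⟨k, hk⟩ : ∃ k, 0 < τ k := by
      by_contra hc
      push Not at hc
      have := Finset.sum_nonpos (s := Finset.univ) fun j _ => hc j
      linarith [hτ.2]
    exact Finset.sum_pos' (fun j _ => len_nonneg hτ.1 j)
      ⟨k, Finset.mem_univ _, len_pos hτ.1 hτ.2 k hk⟩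
  let ex : (Fin N → ℝ) → Fin N → ℝ := fun τ k =>
    max 0 (L k / (∑ j, L j) - len τ k / ∑ j : Fin N, len τ j)
  let g : (Fin N → ℝ) → Fin N → ℝ := fun τ k => (τ k + ex τ k) / (1 + ∑ j, ex τ j)
  have hex0 : ∀ τ k, 0 ≤ ex τ k := fun τ k => le_max_left _ _
  have hden : ∀ τ, 0 < 1 + ∑ j, ex τ j := fun τ => by
    have := Finset.sum_nonneg fun j (_ : j ∈ Finset.univ) => hex0 τ j
    linarith
  have hexc : ∀ k, ContinuousOn (fun τ => ex τ k) K := fun k =>
    continuousOn_const.sup (continuousOn_const.sub ((continuous_len _).continuousOn.div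
      (continuous_finsetSum _ fun j _ => continuous_len _).continuousOn fun τ hτ => (htot τ hτ).ne'))
  have hg : ContinuousOn g K := continuousOn_pi.2 fun k =>
    ((continuous_apply k).continuousOn.add (hexc k)).div
      (continuousOn_const.add (continuousOn_finsetSum _ fun j _ => hexc j)) fun τ _ => (hden τ).ne'
  have hmaps : MapsTo g K K := fun τ hτ =>
    ⟨fun k => div_nonneg (add_nonneg (hτ.1 k) (hex0 τ k)) (hden τ).le, by
      simp only [g]
      rw [← Finset.sum_div, Finset.sum_add_distrib, hτ.2, div_self (hden τ).ne']⟩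
  obtain ⟨τ, hτ, hfix⟩ := Vale.Agent.Common.Brouwer.exists_fixed (isCompact_stdSimplex ℝ (Fin N))
    (convex_stdSimplex ℝ _) ⟨_, single_mem_stdSimplex ℝ (0 : Fin N)⟩ hg hmaps
  have hk : ∀ k, ex τ k = τ k * ∑ j, ex τ j := fun k => by
    have := congrFun hfix k
    simp only [g] at this
    rw [div_eq_iff (hden τ).ne'] at this
    linarith [mul_add (τ k) 1 (∑ j, ex τ j)]
  have hsum : ∑ j : Fin N, len τ j / ∑ i : Fin N, len τ i = 1 := by
    rw [← Finset.sum_div, div_self (htot τ hτ).ne']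
  have hsumL : ∑ j : Fin N, L j / ∑ i : Fin N, L i = 1 := by
    rw [← Finset.sum_div, div_self hT.ne']
  have hge : ∀ k : Fin N, L k / (∑ j, L j) ≤ len τ k / ∑ j : Fin N, len τ j := by
    rcases (Finset.sum_nonneg fun j (_ : j ∈ Finset.univ) => hex0 τ j).eq_or_lt with h | h
    · intro k
      have : ex τ k = 0 := by rw [hk k, ← h, mul_zero]
      have h2 : L k / (∑ j, L j) - len τ k / ∑ j : Fin N, len τ j ≤ 0 :=
        this ▸ le_max_right _ _
      linarith
    · exfalso
      have hlt : ∀ k : Fin N, len τ k / ∑ j : Fin N, len τ j < L k / ∑ j, L j := by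
        intro k
        rcases (hτ.1 k).eq_or_lt with h0 | h0
        · rw [len_eq_zero k h0.symm, zero_div]
          exact div_pos (hL k) hT
        · have : 0 < ex τ k := hk k ▸ mul_pos h0 h
          rcases lt_max_iff.1 this with h1 | h1
          · exact absurd h1 (lt_irrefl _)
          · linarith
      have := Finset.sum_lt_sum_of_nonempty Finset.univ_nonempty fun k _ => hlt k
      linarith
  have heq : ∀ k : Fin N, L k / (∑ j, L j) = len τ k / ∑ j : Fin N, len τ j := fun k =>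
    (Finset.sum_eq_sum_iff_of_le fun j _ => hge j).1 (hsumL.trans hsum.symm) k (Finset.mem_univ k)
  refine ⟨τ, fun j => (hτ.1 j).lt_of_ne' fun h0 => ?_, hτ.2,
    (∑ j, L j) / ∑ j : Fin N, len τ j, div_pos hT (htot τ hτ), fun j => ?_⟩
  · have := heq j
    rw [len_eq_zero j h0, zero_div] at this
    exact (div_pos (hL j) hT).ne' this
  · have h := heq j
    rw [div_eq_div_iff hT.ne' (htot τ hτ).ne'] at h
    rw [div_mul_eq_mul_div, div_eq_iff (htot τ hτ).ne']
    linarith

theorem cpow_one_sub_exp {x : ℝ} (hx : x ∈ Icc 0 (2 * π)) {p : ℝ} (hp : 0 < p) :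
    (1 - Complex.exp (-(x : ℂ) * I)) ^ (p : ℂ)
      = (((2 * Real.sin (x / 2)) ^ p : ℝ) : ℂ) * Complex.exp ((p * (π / 2 - x / 2) : ℝ) * I) := by
  have hs : 0 ≤ Real.sin (x / 2) :=
    Real.sin_nonneg_of_nonneg_of_le_pi (by linarith [hx.1]) (by linarith [hx.2])
  have hbase : 1 - Complex.exp (-(x : ℂ) * I)
      = ((2 * Real.sin (x / 2) : ℝ) : ℂ) * Complex.exp (((π / 2 - x / 2 : ℝ) : ℂ) * I) := by
    have e1 : Complex.exp (((π / 2 - x / 2 : ℝ) : ℂ) * I)
        = I * Complex.exp (-((x / 2 : ℝ) : ℂ) * I) := by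
      rw [show ((π / 2 - x / 2 : ℝ) : ℂ) * I
          = (π : ℂ) / 2 * I + -((x / 2 : ℝ) : ℂ) * I by push_cast; ring,
        Complex.exp_add, exp_pi_div_two_mul_I]
    have e2 : Complex.exp (-(x : ℂ) * I)
        = Complex.exp (-((x / 2 : ℝ) : ℂ) * I) * Complex.exp (-((x / 2 : ℝ) : ℂ) * I) := by
      rw [← Complex.exp_add]; congr 1; push_cast; ring
    have e3 : Complex.exp (((x / 2 : ℝ) : ℂ) * I) * Complex.exp (-((x / 2 : ℝ) : ℂ) * I) = 1 := by
      rw [← Complex.exp_add]; simp
    rw [e1, e2, ofReal_mul, ofReal_sin, Complex.sin]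
    push_cast at e3 ⊢
    linear_combination (-(Complex.exp (-((x : ℂ) / 2) * I) * Complex.exp (-((x : ℂ) / 2) * I) -
      Complex.exp ((x : ℂ) / 2 * I) * Complex.exp (-((x : ℂ) / 2) * I))) * I_mul_I - e3
  rcases hs.eq_or_lt with h0 | h0
  · rw [hbase, ← h0]
    simp [hp.ne', Real.zero_rpow]
  · have hpos : 0 < 2 * Real.sin (x / 2) := by linarith
    have hx0 : 0 < x := hx.1.lt_of_ne' fun h => by simp [h] at h0
    rw [hbase, cpow_def_of_ne_zero (mul_ne_zero (ofReal_ne_zero.2 hpos.ne') (Complex.exp_ne_zero _)),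
      Real.rpow_def_of_pos hpos, ofReal_exp, ← Complex.exp_add]
    congr 1
    rw [log_ofReal_mul hpos (Complex.exp_ne_zero _), Complex.log_exp]
    · push_cast; ring
    · simp; linarith [hx.2, Real.pi_pos]
    · simp; linarith [hx0, Real.pi_pos]

theorem sum_ite_lt {k : ℕ} (hk : k ≤ N) (b : ℝ) :
    ∑ j : Fin N, (if (j : ℕ) < k then b else 0) = k * b := by
  rw [Fin.sum_univ_eq_sum_range (fun j => if j < k then b else 0) N, ← Finset.sum_filter]
  have : (Finset.range N).filter (fun j => j < k) = Finset.range k := by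
    ext j; simp; omega
  simp [this]

/-- On the `k`-th arc the integrand is a nonnegative multiple of the `k`-th edge direction. -/
theorem integrand_eq (hN : 0 < N) {τ : Fin N → ℝ} (h : ∀ j, 0 ≤ τ j) (h1 : ∑ j, τ j = 1) (r : ℝ)
    (k : Fin N) {θ : ℝ} (hθ : θ ∈ Icc (ang τ k) (ang τ (k + 1))) :
    I * coef τ r * Complex.exp ((θ : ℂ) * I) * sc N (pre τ) (Complex.exp (-(θ : ℂ) * I))
      = ((r * mag τ θ : ℝ) : ℂ) * (I * dir N k) := by
  set x : Fin N → ℝ := fun j => θ - ang τ j + (2 * π - if (j : ℕ) < k + 1 then 2 * π else 0)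
  set p : ℝ := 2 / N with hp
  have hN' : (0 : ℝ) < N := by exact_mod_cast hN
  have hp0 : 0 < p := by positivity
  have hfac : ∀ j : Fin N,
      (1 - pre τ j * Complex.exp (-(θ : ℂ) * I)) ^ (p : ℂ)
        = (((2 * |Real.sin ((θ - ang τ j) / 2)|) ^ p : ℝ) : ℂ)
          * Complex.exp ((p * (π / 2 - x j / 2) : ℝ) * I) := by
    intro j
    have hj0 : 0 ≤ ang τ j := ang_zero τ ▸ ang_mono h (Nat.zero_le _)
    have hj2 : ang τ j ≤ 2 * π := ang_last h1 ▸ ang_mono h j.2.le
    have hk0 : 0 ≤ ang τ k := ang_zero τ ▸ ang_mono h (Nat.zero_le _)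
    have hk2 : ang τ (k + 1) ≤ 2 * π := ang_last h1 ▸ ang_mono h k.2
    by_cases hjk : (j : ℕ) < k + 1
    · have hx : x j = θ - ang τ j := by simp only [x, if_pos hjk, sub_self, add_zero]
      have := ang_mono h (Nat.lt_succ_iff.1 hjk)
      have hmem : x j ∈ Icc 0 (2 * π) := by
        rw [hx]; exact ⟨by linarith [hθ.1], by linarith [hθ.2]⟩
      have he : pre τ j * Complex.exp (-(θ : ℂ) * I) = Complex.exp (-(x j : ℂ) * I) := by
        rw [pre, hx, ← Complex.exp_add]; congr 1; push_cast; ring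
      rw [he, cpow_one_sub_exp hmem hp0, hx, abs_of_nonneg]
      exact Real.sin_nonneg_of_nonneg_of_le_pi (by linarith [hθ.1]) (by linarith [hθ.2])
    · have hx : x j = θ - ang τ j + 2 * π := by simp only [x, if_neg hjk, sub_zero]
      have := ang_mono h (Nat.le_of_not_lt hjk)
      have hmem : x j ∈ Icc 0 (2 * π) := by
        rw [hx]; exact ⟨by linarith [hθ.1], by linarith [hθ.2]⟩
      have he : pre τ j * Complex.exp (-(θ : ℂ) * I) = Complex.exp (-(x j : ℂ) * I) := by
        rw [pre, hx, ← Complex.exp_add]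
        rw [show -((θ - ang τ j + 2 * π : ℝ) : ℂ) * I
            = ((ang τ j : ℂ) * I + -(θ : ℂ) * I) - 2 * π * I by push_cast; ring,
          Complex.exp_sub, exp_two_pi_mul_I, div_one]
      rw [he, cpow_one_sub_exp hmem hp0]
      congr 4
      rw [hx, show (θ - ang τ j + 2 * π) / 2 = (θ - ang τ j) / 2 + π by ring, Real.sin_add_pi,
        abs_of_nonpos]
      exact Real.sin_nonpos_of_nonpos_of_neg_pi_le (by linarith [hθ.2]) (by linarith [hθ.1])
  have hsc : sc N (pre τ) (Complex.exp (-(θ : ℂ) * I))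
      = (mag τ θ : ℂ) * Complex.exp ((∑ j, p * (π / 2 - x j / 2) : ℝ) * I) := by
    rw [mag, ofReal_prod, ofReal_sum, Finset.sum_mul, Complex.exp_sum, ← Finset.prod_mul_distrib]
    unfold sc
    exact Finset.prod_congr rfl fun j _ => hfac j
  have hangle : ∑ j, p * (π / 2 - x j / 2)
      = (π + (∑ j : Fin N, ang τ j) / N + 2 * π / N) - θ + 2 * π * ((k : ℕ) / N : ℝ) - 2 * π := by
    simp only [x, ← Finset.mul_sum, Finset.sum_sub_distrib, Finset.sum_add_distrib,
      ← Finset.sum_div, sum_ite_lt (Nat.succ_le_of_lt k.2), Finset.sum_const, Finset.card_univ,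
      Fintype.card_fin, nsmul_eq_mul, hp]
    push_cast
    field_simp
    ring
  rw [hsc, hangle, coef, dir, ofReal_mul r]
  have key : Complex.exp (((-(π + (∑ j : Fin N, ang τ j) / N + 2 * π / N) : ℝ) : ℂ) * I)
      * Complex.exp ((θ : ℂ) * I)
      * Complex.exp ((((π + (∑ j : Fin N, ang τ j) / N + 2 * π / N) - θ
          + 2 * π * ((k : ℕ) / N : ℝ) - 2 * π : ℝ) : ℂ) * I)
      = Complex.exp (((2 * π * ((k : ℕ) / N : ℝ) : ℝ) : ℂ) * I) := by
    rw [← Complex.exp_add, ← Complex.exp_add, ← mul_one (Complex.exp (_ : ℂ)),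
      ← exp_two_pi_mul_I, ← Complex.exp_add]
    congr 1
    push_cast
    ring
  linear_combination (I * (r : ℂ) * (mag τ θ : ℂ)) * key

theorem continuous_integrand (a : Fin N → ℂ) (ha : ∀ j, ‖a j‖ = 1) :
    ContinuousOn (sc N a) (closedBall 0 1) := by
  rcases Nat.eq_zero_or_pos N with rfl | hN
  · unfold sc; simp [continuousOn_const]
  unfold sc
  refine continuousOn_finsetProd _ fun j _ => fun v hv => ?_
  refine ContinuousAt.continuousWithinAt ?_
  refine ContinuousAt.comp (g := fun z : ℂ => z ^ ((2 / N : ℝ) : ℂ))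
    (f := fun v => 1 - a j * v) (continuousAt_cpow_const_of_re_pos (Or.inl ?_) ?_) (by fun_prop)
  · have h2 : ‖a j * v‖ ≤ 1 := by
      rw [norm_mul, ha j, one_mul]; exact mem_closedBall_zero_iff.1 hv
    have := (re_le_norm (a j * v)).trans h2
    simp only [sub_re, one_re]; linarith
  · rw [ofReal_re]; positivity

theorem continuous_path_integrand (a : Fin N → ℂ) (ha : ∀ j, ‖a j‖ = 1) (c : ℂ) :
    Continuous fun θ : ℝ =>
      I * c * Complex.exp ((θ : ℂ) * I) * sc N a (Complex.exp (-(θ : ℂ) * I)) :=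
  (by fun_prop : Continuous fun θ : ℝ => I * c * Complex.exp ((θ : ℂ) * I)).mul
    ((continuous_integrand a ha).comp_continuous (by fun_prop) fun θ => by
      simp [Complex.norm_exp])

theorem hasDerivAt_sc_zero (a : Fin N → ℂ) :
    HasDerivAt (sc N a) (-((2 / N : ℝ) : ℂ) * ∑ j, a j) 0 := by
  have h1 : ∀ j ∈ (Finset.univ : Finset (Fin N)),
      HasDerivAt (fun v => (1 - a j * v) ^ ((2 / N : ℝ) : ℂ)) (-((2 / N : ℝ) : ℂ) * a j) 0 := by
    intro j _
    have := (((hasDerivAt_id (0 : ℂ)).const_mul (a j)).const_sub 1).cpow_const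
      (c := ((2 / N : ℝ) : ℂ)) (by simp)
    simpa using this
  unfold sc
  refine (HasDerivAt.fun_finsetProd h1).congr_deriv ?_
  simp [Finset.mul_sum]

/-- A closed Schwarz-Christoffel path forces the prevertices to sum to zero. -/
theorem sum_eq_zero (hN : 0 < N) (a : Fin N → ℂ) (ha : ∀ j, ‖a j‖ = 1)
    (h0 : ∫ θ in (0 : ℝ)..2 * π,
      Complex.exp ((θ : ℂ) * I) * sc N a (Complex.exp (-(θ : ℂ) * I)) = 0) :
    ∑ j, a j = 0 := by
  have hsc := continuous_integrand a ha
  have hd : DifferentiableOn ℂ (sc N a) (ball 0 1) := by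
    intro v hv
    refine DifferentiableAt.differentiableWithinAt ?_
    unfold sc
    refine DifferentiableAt.fun_finsetProd fun j _ => ?_
    refine DifferentiableAt.cpow (by fun_prop) (by fun_prop) (Or.inl ?_)
    have h2 : ‖a j * v‖ < 1 := by rw [norm_mul, ha j, one_mul]; exact mem_ball_zero_iff.1 hv
    have := (re_le_norm (a j * v)).trans_lt h2
    simp only [sub_re, one_re]; linarith
  have hd0 : DifferentiableAt ℂ (sc N a) 0 := hd.differentiableAt (ball_mem_nhds _ one_pos)
  have hg1 : ContinuousOn (dslope (sc N a) 0) (closedBall 0 1) :=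
    (continuousOn_dslope (closedBall_mem_nhds _ one_pos)).2 ⟨hsc, hd0⟩
  have hg2 := (Complex.differentiableOn_dslope (ball_mem_nhds (0 : ℂ) one_pos)).2 hd
  have hm := av_holo countable_empty hg1 fun z hz =>
    hg2.differentiableAt (isOpen_ball.mem_nhds hz.1)
  rw [dslope_same, (hasDerivAt_sc_zero a).deriv] at hm
  set hh : ℝ → ℂ := fun θ => Complex.exp (-(θ : ℂ) * I) * sc N a (Complex.exp ((θ : ℂ) * I))
  have hper : Function.Periodic hh (2 * π) := fun θ => by
    simp only [hh]
    have e : Complex.exp (((θ + 2 * π : ℝ) : ℂ) * I) = Complex.exp ((θ : ℂ) * I) := by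
      push_cast; rw [add_mul, Complex.exp_add, exp_two_pi_mul_I, mul_one]
    have e' : Complex.exp (-((θ + 2 * π : ℝ) : ℂ) * I) = Complex.exp (-(θ : ℂ) * I) := by
      rw [neg_mul, Complex.exp_neg, e, ← Complex.exp_neg, ← neg_mul]
    rw [e, e']
  have hI : ∫ θ in (0 : ℝ)..2 * π, hh θ = 0 := by
    have h1 : ∫ θ in (0 : ℝ)..2 * π, hh (-θ) = 0 := by
      simpa [hh] using h0
    rw [intervalIntegral.integral_comp_neg] at h1
    have h2 := hper.intervalIntegral_add_eq 0 (-(2 * π))
    simp only [zero_add, neg_add_cancel, neg_zero] at h1 h2 ⊢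
    rw [h2, h1]
  have hg : ∀ θ : ℝ, dslope (sc N a) 0 (circleMap 0 1 θ)
      = hh θ - Complex.exp ((-I) * (θ : ℂ)) := by
    intro θ
    have hne : circleMap (0 : ℂ) 1 θ ≠ 0 := circleMap_ne_center one_ne_zero
    rw [dslope_of_ne _ hne, slope_def_field]
    have e1 : circleMap (0 : ℂ) 1 θ = Complex.exp ((θ : ℂ) * I) := by simp [circleMap]
    have e0 : sc N a 0 = 1 := by simp [sc]
    rw [e0, sub_zero, e1, div_eq_mul_inv, ← Complex.exp_neg]
    simp only [hh]
    ring_nf
  have hE : ∫ θ in (0 : ℝ)..2 * π, Complex.exp ((-I) * (θ : ℂ)) = 0 := by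
    rw [integral_exp_mul_complex (neg_ne_zero.2 I_ne_zero)]
    have : Complex.exp ((-I) * ((2 * π : ℝ) : ℂ)) = 1 := by
      rw [neg_mul, Complex.exp_neg]; push_cast
      rw [mul_comm I, exp_two_pi_mul_I, inv_one]
    rw [this]; simp
  have hhc : Continuous hh :=
    (by fun_prop : Continuous fun θ : ℝ => Complex.exp (-(θ : ℂ) * I)).mul
      (hsc.comp_continuous (by fun_prop) fun θ => by simp [Complex.norm_exp])
  rw [av, Real.circleAverage] at hm
  simp only [hg] at hm
  rw [intervalIntegral.integral_sub (hhc.intervalIntegrable _ _)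
    ((by fun_prop : Continuous fun θ : ℝ => Complex.exp ((-I) * (θ : ℂ))).intervalIntegrable _ _),
    hI, hE, sub_zero, smul_zero] at hm
  rcases mul_eq_zero.1 hm.symm with h | h
  · exact absurd h (neg_ne_zero.2 (ofReal_ne_zero.2 (by positivity)))
  · exact h

end Sc

open Sc in
theorem exists_prevertices {N : ℕ} (hN : 3 ≤ N) (V : ℕ → ℂ) (L : ℕ → ℝ) (hL : ∀ j, 0 < L j)
    (hper : ∀ j, V (j + N) = V j) (hV : ∀ j, V (j + 1) = V j + (L j : ℂ) * (I * dir N j)) :
    ∃ (a : Fin N → ℂ) (c : ℂ), c ≠ 0 ∧ (∀ j, ‖a j‖ = 1) ∧ ∑ j, a j = 0 ∧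
      (∀ t ∈ Icc (0 : ℝ) (2 * Real.pi), scPath N a c (V 0) t ∈ convexHull ℝ (range V)) ∧
      ∀ j, ∃ t ∈ Icc (0 : ℝ) (2 * Real.pi), scPath N a c (V 0) t = V j := by
  have hN0 : 0 < N := by omega
  obtain ⟨τ, hτ, h1, r, hr, hlen⟩ := exists_len hN0 (fun j : Fin N => L j) fun j => hL j
  have h0 : ∀ j, 0 ≤ τ j := fun j => (hτ j).le
  have ha : ∀ j, ‖pre τ j‖ = 1 := fun j => norm_exp_ofReal_mul_I _
  have hc : coef τ r ≠ 0 := mul_ne_zero (ofReal_ne_zero.2 hr.ne') (Complex.exp_ne_zero _)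
  have hint := continuous_path_integrand (pre τ) ha (coef τ r)
  have hstep : ∀ (k : Fin N) (t : ℝ), t ∈ Icc (ang τ k) (ang τ (k + 1)) →
      scPath N (pre τ) (coef τ r) (V 0) t = scPath N (pre τ) (coef τ r) (V 0) (ang τ k)
        + ((r * ∫ θ in ang τ k..t, mag τ θ : ℝ) : ℂ) * (I * dir N k) := by
    intro k t ht
    unfold scPath
    rw [← intervalIntegral.integral_const_mul, ← intervalIntegral.integral_ofReal,
      ← intervalIntegral.integral_mul_const, add_assoc]
    congr 1
    rw [← intervalIntegral.integral_add_adjacent_intervals (hint.intervalIntegrable 0 (ang τ k))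
      (hint.intervalIntegrable (ang τ k) t)]
    congr 1
    refine intervalIntegral.integral_congr fun θ hθ => ?_
    rw [uIcc_of_le ht.1] at hθ
    exact integrand_eq hN0 h0 h1 r k ⟨hθ.1, hθ.2.trans ht.2⟩
  have hvert : ∀ k, k ≤ N → scPath N (pre τ) (coef τ r) (V 0) (ang τ k) = V k := by
    intro k
    induction k with
    | zero => intro _; simp [scPath, ang_zero]
    | succ k ih =>
      intro hk
      have h := hstep ⟨k, hk⟩ (ang τ (k + 1)) ⟨ang_mono h0 (Nat.le_succ k), le_rfl⟩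
      simp only at h
      rw [h, ih (by omega), ← len_eq, hV k]
      have h' := hlen ⟨k, hk⟩
      simp only at h'
      rw [h']
  have hcov : ∀ n, 0 < n → ∀ t, 0 ≤ t → t ≤ ang τ n →
      ∃ k, k < n ∧ t ∈ Icc (ang τ k) (ang τ (k + 1)) := by
    intro n
    induction n with
    | zero => intro h; omega
    | succ n ih =>
      intro _ t ht0 ht
      by_cases hh : ang τ n ≤ t
      · exact ⟨n, by omega, hh, ht⟩
      · rcases Nat.eq_zero_or_pos n with rfl | hn
        · rw [ang_zero] at hh; exact absurd ht0 hh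
        · obtain ⟨k, hk, hk'⟩ := ih hn t ht0 (le_of_not_ge hh)
          exact ⟨k, by omega, hk'⟩
  refine ⟨pre τ, coef τ r, hc, ha, ?_, ?_, ?_⟩
  · apply Sc.sum_eq_zero hN0 _ ha
    have h := hvert N le_rfl
    rw [ang_last h1, scPath, show V N = V 0 by simpa using hper 0, add_eq_left] at h
    simp only [mul_assoc, intervalIntegral.integral_const_mul] at h
    simpa [hc, I_ne_zero] using h
  · intro t ht
    obtain ⟨k, hk, hkt⟩ := hcov N hN0 t ht.1 (by rw [ang_last h1]; exact ht.2)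
    have h := hstep ⟨k, hk⟩ t hkt
    simp only at h
    rw [h, hvert k hk.le]
    set s : ℝ := (r * ∫ θ in ang τ k..t, mag τ θ) / L k with hs
    have hI : (r * ∫ θ in ang τ k..t, mag τ θ) ∈ Icc 0 (L k) := by
      refine ⟨mul_nonneg hr.le (intervalIntegral.integral_nonneg hkt.1 fun θ _ => mag_nonneg τ θ), ?_⟩
      have h' := hlen ⟨k, hk⟩
      simp only at h'
      rw [← h', len_eq]
      refine mul_le_mul_of_nonneg_left ?_ hr.le
      exact intervalIntegral.integral_mono_interval le_rfl hkt.1 hkt.2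
        (Filter.Eventually.of_forall fun θ => mag_nonneg τ θ)
        ((continuous_mag' τ).intervalIntegrable _ _)
    have hs01 : s ∈ Icc (0 : ℝ) 1 :=
      ⟨div_nonneg hI.1 (hL k).le, (div_le_one (hL k)).2 hI.2⟩
    have := (convex_convexHull ℝ (range V)).add_smul_sub_mem
      (subset_convexHull ℝ _ (mem_range_self k)) (subset_convexHull ℝ _ (mem_range_self (k + 1)))
      hs01
    convert this using 1
    rw [hV k, add_sub_cancel_left, real_smul, ← mul_assoc (s : ℂ), ← ofReal_mul, hs,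
      div_mul_cancel₀ _ (hL k).ne']
  · intro j
    have hj : j % N < N := Nat.mod_lt _ hN0
    refine ⟨ang τ (j % N), ⟨ang_zero τ ▸ ang_mono h0 (Nat.zero_le _),
      ang_last h1 ▸ ang_mono h0 hj.le⟩, ?_⟩
    rw [hvert _ hj.le]
    exact (Function.Periodic.map_mod_nat (f := V) hper j)

end Vale.Agent.P123
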