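import Vale.Agent.P123.Defs

/-!
A model whose curve has every support value above that of a set `K` surrounds every operator with
numerical range in `K`.
-/

noncomputable section

namespace Vale.Agent.P123

open Complex Metric Set Filter Topology
open scoped ComplexConjugate InnerProductSpace

namespace Model

variable (m : Model)

/-- A point supported by all the half planes of the curve is never `psi v` for `0 < |v| < 1`. -/
theorem psi_ne_of_support (h0 : ∀ v : ℂ, ‖v‖ ≤ 1 → m.c - v ^ 2 * deriv m.phi v ≠ 0) {Z : ℂ}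
    (hZ : ∀ v : ℂ, ‖v‖ = 1 → 0 ≤ ((m.psi v - Z) * conj (m.nrm v)).re) {v : ℂ} (hv : ‖v‖ < 1)
    (hv0 : v ≠ 0) : m.psi v ≠ Z := by
  intro he
  set F := fun z : ℂ => Complex.exp (-((m.c + z * (m.phi z - Z)) /
    (m.c - z ^ 2 * deriv m.phi z))) with hF
  have hd : ∀ z : ℂ, ‖z‖ ≤ 1 → DifferentiableAt ℂ F z := fun z hz => by
    have h1 := (m.hasDerivAt_phi (m.mem_ball_of_le hz)).differentiableAt
    have h2 := (m.hasDerivAt_deriv_phi (m.mem_ball_of_le hz)).differentiableAt
    have hnum : DifferentiableAt ℂ (fun z => m.c + z * (m.phi z - Z)) z := by fun_prop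
    have hden : DifferentiableAt ℂ (fun z => m.c - z ^ 2 * deriv m.phi z) z := by fun_prop
    exact (hnum.fun_div hden (h0 z hz)).fun_neg.cexp
  have hcl : DiffContOnCl ℂ F (ball 0 1) := by
    refine ⟨fun z hz => (hd z (mem_ball_zero_iff.1 hz).le).differentiableWithinAt, ?_⟩
    rw [closure_ball _ one_ne_zero]
    exact fun z hz => (hd z (mem_closedBall_zero_iff.1 hz)).continuousAt.continuousWithinAt
  have hbd : ∀ z ∈ frontier (ball (0 : ℂ) 1), ‖F z‖ ≤ 1 := by
    intro z hz
    rw [frontier_ball _ one_ne_zero, mem_sphere_zero_iff_norm] at hz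
    have hz0 : z ≠ 0 := norm_ne_zero_iff.1 (by simp [hz])
    have hn : m.nrm z ≠ 0 := by
      have := h0 z hz.le
      unfold nrm
      contrapose! this
      field_simp at this
      linear_combination this
    have e : (m.c + z * (m.phi z - Z)) / (m.c - z ^ 2 * deriv m.phi z) =
        (m.psi z - Z) / m.nrm z := by
      rw [div_eq_div_iff (h0 z hz.le) hn]
      unfold psi nrm
      field_simp
      ring
    rw [hF, norm_exp, Real.exp_le_one_iff, neg_re, neg_nonpos, e, div_re, ← add_div]
    refine div_nonneg ?_ (normSq_nonneg _)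
    have := hZ z hz
    simp only [mul_re, conj_re, conj_im] at this
    linarith
  have hv1 : F v = 1 := by
    have : m.c + v * (m.phi v - Z) = 0 := by
      rw [← he]; unfold psi; field_simp; ring
    simp [hF, this]
  have hmax : IsMaxOn (norm ∘ F) (ball (0 : ℂ) 1) v := by
    intro z hz
    simp only [Function.comp_apply, hv1, norm_one, mem_ofPred_eq]
    exact Complex.norm_le_of_forall_mem_frontier_norm_le isBounded_ball hcl hbd
      (subset_closure hz)
  have hconst := Complex.eqOn_of_isPreconnected_of_isMaxOn_norm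
    (convex_ball (0 : ℂ) 1).isPreconnected isOpen_ball hcl.1 (mem_ball_zero_iff.2 hv) hmax
  have h00 := hconst (mem_ball_self one_pos)
  rw [hv1] at h00
  simp [hF, m.c_ne] at h00
  have := congrArg norm h00
  simp [norm_exp] at this

/-- The curve of `m` surrounds an operator if its support values exceed those of a set containing
the numerical range. -/
theorem surrounds {E : Type*} [NormedAddCommGroup E] [InnerProductSpace ℂ E] {A : E →L[ℂ] E}
    (h0 : ∀ v : ℂ, ‖v‖ ≤ 1 → m.c - v ^ 2 * deriv m.phi v ≠ 0) {K : Set ℂ} {δ : ℝ} (hδ : 0 < δ)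
    (hA : ∀ x : E, ‖x‖ = 1 → ⟪x, A x⟫_ℂ ∈ K)
    (hK : ∀ e : ℂ, ‖e‖ = 1 → ∀ z ∈ K, ∃ u : ℂ, ‖u‖ = 1 ∧
      (conj e * z).re + δ ≤ (conj e * m.psi u).re) : Surrounds m A := by
  have hn : ∀ v : ℂ, ‖v‖ = 1 → m.nrm v ≠ 0 := fun v hv => by
    have := h0 v hv.le
    have hv0 : v ≠ 0 := norm_ne_zero_iff.1 (by simp [hv])
    unfold nrm
    contrapose! this
    field_simp at this
    linear_combination this
  have strict : ∀ x : E, ‖x‖ = 1 → ∀ v : ℂ, ‖v‖ = 1 →
      0 < ((m.psi v - ⟪x, A x⟫_ℂ) * conj (m.nrm v)).re := by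
    intro x hx v hv
    have hn0 : 0 < ‖m.nrm v‖ := norm_pos_iff.2 (hn v hv)
    set e := m.nrm v / (‖m.nrm v‖ : ℂ) with he
    have he1 : ‖e‖ = 1 := by simp [he, hn0.ne']
    obtain ⟨u, hu, hle⟩ := hK e he1 _ (hA x hx)
    have hs := m.convex_pos v u hv hu
    have hen : conj (m.nrm v) = (‖m.nrm v‖ : ℂ) * conj e := by
      rw [he, map_div₀, conj_ofReal, mul_div_cancel₀ _ (by exact_mod_cast hn0.ne')]
    have h2 := mul_le_mul_of_nonneg_left hle hn0.le
    rw [mul_add] at h2
    rw [← re_ofReal_mul, ← re_ofReal_mul, ← mul_assoc, ← mul_assoc, ← hen] at h2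
    have h3 := mul_pos hn0 hδ
    unfold psi nrm at *
    simp only [mul_re, sub_re, sub_im] at hs h2 ⊢
    linarith
  refine ⟨fun x hx v hv => (strict x hx v hv).le, fun x hx v hv hv0 => ?_, fun v hv hv0 => ?_⟩
  · rcases hv.eq_or_lt with hv1 | hv1
    · intro heq
      simpa [heq] using strict x hx v hv1
    · exact m.psi_ne_of_support h0 (fun z hz => (strict x hx z hz).le) hv1 hv0
  · set S : Set ℂ := {Z | ∀ z : ℂ, ‖z‖ = 1 → 0 ≤ ((m.psi z - Z) * conj (m.nrm z)).re} with hS
    have hSeq : S = ⋂ (z : ℂ) (_ : ‖z‖ = 1),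
        {Z : ℂ | 0 ≤ ((m.psi z - Z) * conj (m.nrm z)).re} := by ext; simp [hS]
    have hconv : Convex ℝ S := by
      intro a ha b hb s t hs ht hst z hz
      have e : (m.psi z - (s • a + t • b)) * conj (m.nrm z) =
          s • ((m.psi z - a) * conj (m.nrm z)) + t • ((m.psi z - b) * conj (m.nrm z)) := by
        have : ((s : ℂ)) + t = 1 := by exact_mod_cast hst
        simp only [Complex.real_smul]
        linear_combination (-(m.psi z * conj (m.nrm z))) * this
      rw [e, add_re, Complex.smul_re, Complex.smul_re]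
      exact add_nonneg (mul_nonneg hs (ha z hz)) (mul_nonneg ht (hb z hz))
    have hclosed : IsClosed S := by
      rw [hSeq]
      exact isClosed_iInter fun z => isClosed_iInter fun _ =>
        isClosed_le continuous_const (by fun_prop)
    have hvS : m.psi v ∉ S := fun hmem => m.psi_ne_of_support h0 hmem hv hv0 rfl
    obtain ⟨g, r, hg1, hg2⟩ := geometric_hahn_banach_closed_point hconv hclosed hvS
    refine ⟨(g 1 : ℂ) - I * (g I : ℂ), fun u hu => ?_⟩
    have hu' : g (m.psi u) < r := hg1 _ fun z hz => m.convex_pos z u hz hu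
    have hlin : ∀ z : ℂ, g z = (((g 1 : ℂ) - I * (g I : ℂ)) * z).re := fun z => by
      conv_lhs => rw [show z = z.re • (1 : ℂ) + z.im • I by simp [Complex.real_smul]]
      rw [map_add, map_smul, map_smul]
      simp [mul_re]; ring
    rw [← hlin, map_sub]
    linarith

end Model

end Vale.Agent.P123
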