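import Vale.Agent.P123.Core
import Vale.Agent.P123.Surround
import Vale.Agent.P123.Reduction
import Vale.Agent.P123.Polygon
import Vale.Agent.P123.Sc
import Vale.Agent.P123.Curve

/-!
Crouzeix's inequality with constant `2`.
-/

noncomputable section

namespace Vale.Agent.P123

open Complex Metric Set Polynomial
open scoped ComplexConjugate InnerProductSpace

/-- The inequality on a finite-dimensional space. -/
theorem crouzeix_finDim {E : Type*} [NormedAddCommGroup E] [InnerProductSpace ℂ E]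
    [FiniteDimensional ℂ E] [Nontrivial E] (A : E →L[ℂ] E) (P : ℂ[X]) {M : ℝ}
    (hM : ∀ z ∈ numRange A, ‖P.eval z‖ ≤ M) : ‖aeval A P‖ ≤ 2 * M := by
  obtain ⟨z₀, hz₀⟩ := nonempty_numRange A
  have hM0 : 0 ≤ M := (norm_nonneg _).trans (hM _ hz₀)
  by_cases hT : aeval A P = 0
  · rw [hT, norm_zero]; positivity
  refine le_of_forall_pos_le_add fun t ht => ?_
  have hK := isCompact_numRange A
  obtain ⟨ε, hε, hsub⟩ := hK.exists_cthickening_subset_open
    (isOpen_lt P.continuous.norm continuous_const : IsOpen {z | ‖P.eval z‖ < M + t / 2})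
    (fun z hz => show ‖P.eval z‖ < M + t / 2 by linarith [hM z hz])
  obtain ⟨N, V, L, δ, hN, hδ, hL, hper, hstep, hhull, hmar⟩ :=
    exists_polygon hK ⟨z₀, hz₀⟩ (convex_numRange A) (half_pos hε)
  obtain ⟨a, c, hc, ha, hsum, hpath, hvert⟩ := exists_prevertices hN V L hL hper hstep
  obtain ⟨m, h0, hclose⟩ := exists_model hN a c hc ha hsum (V 0)
    (η := min (δ / 2) (ε / 2)) (lt_min (half_pos hδ) (half_pos hε))
  have hexp : ∀ θ : ℝ, ‖Complex.exp (-(θ : ℂ) * I)‖ = 1 := fun θ => by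
    rw [show -(θ : ℂ) * I = ((-θ : ℝ) : ℂ) * I by push_cast; ring]
    exact norm_exp_ofReal_mul_I _
  have hsur : Surrounds m A := by
    refine m.surrounds h0 (K := numRange A) (half_pos hδ) (fun x hx => ⟨x, hx, rfl⟩) fun e he z hz => ?_
    obtain ⟨j, hj⟩ := hmar e he z hz
    obtain ⟨s, hs, hsj⟩ := hvert j
    refine ⟨_, hexp s, ?_⟩
    have h1 := hclose s hs
    rw [hsj] at h1
    have h2 : |(conj e * (m.psi (Complex.exp (-(s : ℂ) * I)) - V j)).re| ≤ δ / 2 := by
      refine (abs_re_le_norm _).trans ?_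
      rw [norm_mul, norm_conj, he, one_mul]
      exact h1.trans (min_le_left _ _)
    rw [mul_sub, sub_re] at h2
    linarith [(abs_le.1 h2).1]
  have hB : ∀ u : ℂ, ‖u‖ = 1 → ‖P.eval (m.psi u)‖ ≤ M + t / 2 := by
    intro u hu
    obtain ⟨φ, hφ, hu'⟩ : ∃ φ ∈ Icc (0 : ℝ) (2 * Real.pi), Complex.exp (-(φ : ℂ) * I) = u := by
      have h2 : Complex.exp ((u.arg : ℂ) * I) = u := by
        have := Complex.norm_mul_exp_arg_mul_I u
        rwa [hu, ofReal_one, one_mul] at this
      have hpi := Real.pi_pos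
      by_cases harg : u.arg ≤ 0
      · refine ⟨-u.arg, ⟨by linarith, by linarith [Complex.neg_pi_lt_arg u]⟩, ?_⟩
        rw [ofReal_neg, neg_neg, h2]
      · refine ⟨2 * Real.pi - u.arg, ⟨by linarith [Complex.arg_le_pi u], by linarith⟩, ?_⟩
        rw [show -((2 * Real.pi - u.arg : ℝ) : ℂ) * I =
          (u.arg : ℂ) * I - 2 * Real.pi * I by push_cast; ring, Complex.exp_sub, h2,
          Complex.exp_two_pi_mul_I, div_one]
    rw [← hu']
    refine le_of_lt (hsub (a := m.psi (Complex.exp (-(φ : ℂ) * I))) ?_)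
    refine Set.mem_of_subset_of_mem ?_
      (mem_cthickening_of_dist_le _ _ (ε / 2) (cthickening (ε / 2) (numRange A))
        (hhull (hpath φ hφ)) ((dist_eq_norm _ _).trans_le ((hclose φ hφ).trans (min_le_right _ _))))
    simpa using cthickening_cthickening_subset (half_pos hε).le (half_pos hε).le (numRange A)
  obtain ⟨x, y, hx, hfx, hfy⟩ := exists_singular_pair hT
  have := Core.le_two_mul hsur hx (norm_ne_zero_iff.2 hT) hfx hfy hB
  linarith

/-- Crouzeix's conjecture. -/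
theorem crouzeix {H : Type*} [NormedAddCommGroup H] [InnerProductSpace ℂ H] [Nontrivial H]
    (A : H →L[ℂ] H) (P : ℂ[X]) {M : ℝ} (hM : ∀ x : H, ‖x‖ = 1 → ‖P.eval ⟪x, A x⟫_ℂ‖ ≤ M) :
    ‖aeval A P‖ ≤ 2 * M := by
  obtain ⟨x₀, hx₀⟩ := exists_norm_eq H zero_le_one
  have hM0 : 0 ≤ M := (norm_nonneg _).trans (hM x₀ hx₀)
  refine ContinuousLinearMap.opNorm_le_bound _ (by positivity) fun x => ?_
  by_cases hx : x = 0
  · simp [hx]
  obtain ⟨V, hV, B, x', hx', hsub, heq⟩ := compress A P x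
  haveI : Nontrivial V := ⟨⟨x', 0, fun h => hx (by rw [← hx', h]; rfl)⟩⟩
  have h1 : ‖aeval B P‖ ≤ 2 * M := crouzeix_finDim B P fun z hz => by
    obtain ⟨w, hw, rfl⟩ := hsub hz
    exact hM w hw
  rw [← heq, ← hx', Submodule.norm_coe, Submodule.norm_coe]
  exact ((aeval B P).le_opNorm x').trans (mul_le_mul_of_nonneg_right h1 (norm_nonneg _))

end Vale.Agent.P123
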