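import Vale.Agent.P123.Basic

/-!
A model of a convex curve given by an exterior map `psi v = c / v + phi v` (`v = 1/ζ`), and the
regular part `G` of its Cauchy kernel.
-/

noncomputable section

namespace Vale.Agent.P123

open Complex Metric Set MeasureTheory Filter Topology
open scoped ComplexConjugate

/-- Exterior-map data of a convex curve. -/
structure Model where
  ρ : ℝ
  one_lt : 1 < ρ
  c : ℂ
  c_ne : c ≠ 0
  phi : ℂ → ℂ
  phi_diff : DifferentiableOn ℂ phi (ball 0 ρ)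
  convex_pos : ∀ v u : ℂ, ‖v‖ = 1 → ‖u‖ = 1 →
    0 ≤ ((c / v + phi v - (c / u + phi u)) * conj (c / v - v * deriv phi v)).re
  den_ne : ∀ v u : ℂ, ‖v‖ ≤ 1 → ‖u‖ = 1 →
    c - v * u * ∫ t in (0 : ℝ)..1, deriv phi (v + t * (u - v)) ≠ 0

namespace Model

variable (m : Model)

/-- The exterior map in the inverse coordinate. -/
def psi (v : ℂ) : ℂ := m.c / v + m.phi v

/-- The outward normal at `psi v`. -/
def nrm (v : ℂ) : ℂ := m.c / v - v * deriv m.phi v

/-- First divided difference of `phi`. -/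
def J1 (v u : ℂ) : ℂ := ∫ t in (0 : ℝ)..1, deriv m.phi (v + t * (u - v))

/-- Second divided difference of `phi`. -/
def J2 (v u : ℂ) : ℂ :=
  ∫ t in (0 : ℝ)..1, (1 - (t : ℂ)) * deriv (deriv m.phi) (v + t * (u - v))

/-- The denominator of the regular part of the kernel. -/
def den (v u : ℂ) : ℂ := m.c - v * u * m.J1 v u

/-- The regular part of the Cauchy kernel. -/
def G (v u : ℂ) : ℂ := u * v * (m.J1 v u + v * m.J2 v u) / m.den v u

theorem mem_ball_of_le {v : ℂ} (hv : ‖v‖ ≤ 1) : v ∈ ball (0 : ℂ) m.ρ :=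
  mem_ball_zero_iff.2 (hv.trans_lt m.one_lt)

theorem seg_mem {v u : ℂ} (hv : v ∈ ball (0 : ℂ) m.ρ) (hu : u ∈ ball (0 : ℂ) m.ρ) {t : ℝ}
    (ht : t ∈ Icc (0 : ℝ) 1) : v + t * (u - v) ∈ ball (0 : ℂ) m.ρ := by
  have := (convex_ball (0 : ℂ) m.ρ).add_smul_sub_mem hv hu ht
  simpa [Complex.real_smul] using this

theorem deriv_phi_diff : DifferentiableOn ℂ (deriv m.phi) (ball 0 m.ρ) :=
  m.phi_diff.deriv isOpen_ball

theorem deriv2_phi_diff : DifferentiableOn ℂ (deriv (deriv m.phi)) (ball 0 m.ρ) :=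
  m.deriv_phi_diff.deriv isOpen_ball

theorem hasDerivAt_phi {v : ℂ} (hv : v ∈ ball (0 : ℂ) m.ρ) :
    HasDerivAt m.phi (deriv m.phi v) v :=
  (m.phi_diff.differentiableAt (isOpen_ball.mem_nhds hv)).hasDerivAt

theorem hasDerivAt_deriv_phi {v : ℂ} (hv : v ∈ ball (0 : ℂ) m.ρ) :
    HasDerivAt (deriv m.phi) (deriv (deriv m.phi) v) v :=
  (m.deriv_phi_diff.differentiableAt (isOpen_ball.mem_nhds hv)).hasDerivAt

theorem hasDerivAt_seg (v u : ℂ) (t : ℝ) :
    HasDerivAt (fun s : ℝ => v + (s : ℂ) * (u - v)) (u - v) t := by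
  simpa using (((hasDerivAt_id t).ofReal_comp).mul_const (u - v)).const_add v

theorem continuousOn_seg (g : ℂ → ℂ) (hg : ContinuousOn g (ball 0 m.ρ)) {v u : ℂ}
    (hv : v ∈ ball (0 : ℂ) m.ρ) (hu : u ∈ ball (0 : ℂ) m.ρ) :
    ContinuousOn (fun t : ℝ => g (v + t * (u - v))) (Icc 0 1) :=
  hg.comp (by fun_prop) fun _ ht => m.seg_mem hv hu ht

theorem sub_mul_J1 {v u : ℂ} (hv : v ∈ ball (0 : ℂ) m.ρ) (hu : u ∈ ball (0 : ℂ) m.ρ) :
    (u - v) * m.J1 v u = m.phi u - m.phi v := by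
  unfold J1
  rw [← intervalIntegral.integral_const_mul]
  rw [intervalIntegral.integral_eq_sub_of_hasDerivAt
    (f := fun t : ℝ => m.phi (v + t * (u - v)))]
  · simp
  · intro t ht
    rw [uIcc_of_le zero_le_one] at ht
    have := (m.hasDerivAt_phi (m.seg_mem hv hu ht)).comp t (hasDerivAt_seg v u t)
    simpa [mul_comm, Function.comp_def] using this
  · refine ContinuousOn.intervalIntegrable ?_
    rw [uIcc_of_le zero_le_one]
    exact continuousOn_const.mul (m.continuousOn_seg _ m.deriv_phi_diff.continuousOn hv hu)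

theorem sub_mul_J2 {v u : ℂ} (hv : v ∈ ball (0 : ℂ) m.ρ) (hu : u ∈ ball (0 : ℂ) m.ρ) :
    (u - v) * ((u - v) * m.J2 v u) = m.phi u - m.phi v - (u - v) * deriv m.phi v := by
  unfold J2
  rw [← intervalIntegral.integral_const_mul, ← intervalIntegral.integral_const_mul]
  rw [intervalIntegral.integral_eq_sub_of_hasDerivAt
    (f := fun t : ℝ => (1 - (t : ℂ)) * ((u - v) * deriv m.phi (v + t * (u - v)))
      + m.phi (v + t * (u - v)))]
  · simp; ring
  · intro t ht
    rw [uIcc_of_le zero_le_one] at ht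
    have h1 := (m.hasDerivAt_phi (m.seg_mem hv hu ht)).comp t (hasDerivAt_seg v u t)
    have h2 := (m.hasDerivAt_deriv_phi (m.seg_mem hv hu ht)).comp t (hasDerivAt_seg v u t)
    have h3 : HasDerivAt (fun s : ℝ => 1 - (s : ℂ)) (-1) t := by
      simpa using ((hasDerivAt_id t).ofReal_comp).const_sub 1
    convert (h3.mul (h2.const_mul (u - v))).add h1 using 1
    · rfl
    · simp; ring
  · refine ContinuousOn.intervalIntegrable ?_
    rw [uIcc_of_le zero_le_one]
    exact continuousOn_const.mul (continuousOn_const.mul ((by fun_prop :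
      Continuous fun t : ℝ => 1 - (t : ℂ)).continuousOn.mul
        (m.continuousOn_seg _ m.deriv2_phi_diff.continuousOn hv hu)))

theorem continuousOn_segIntegral (g : ℂ → ℂ) (w : ℝ → ℂ) (hw : Continuous w)
    (hg : ContinuousOn g (ball 0 m.ρ)) :
    ContinuousOn (fun p : ℂ × ℂ => ∫ t in (0 : ℝ)..1, w t * g (p.1 + t * (p.2 - p.1)))
      (closedBall (0 : ℂ) 1 ×ˢ closedBall (0 : ℂ) 1) := by
  rw [continuousOn_iff_continuous_domRestrict]
  set S := closedBall (0 : ℂ) 1 ×ˢ closedBall (0 : ℂ) 1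
  let cl : ℝ → ℝ := fun t => max 0 (min 1 t)
  have hcl : ∀ t, cl t ∈ Icc (0 : ℝ) 1 := fun t => ⟨le_max_left _ _,
    max_le zero_le_one (min_le_left _ _)⟩
  have key : Continuous fun q : S × ℝ =>
      w q.2 * g ((q.1 : ℂ × ℂ).1 + (cl q.2 : ℂ) * ((q.1 : ℂ × ℂ).2 - (q.1 : ℂ × ℂ).1)) := by
    refine (hw.comp continuous_snd).mul (hg.comp_continuous (by fun_prop) fun q => ?_)
    exact m.seg_mem (m.mem_ball_of_le (mem_closedBall_zero_iff.1 q.1.2.1))
      (m.mem_ball_of_le (mem_closedBall_zero_iff.1 q.1.2.2)) (hcl q.2)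
  refine (intervalIntegral.continuous_parametric_intervalIntegral_of_continuous' (μ := volume)
    (f := fun (p : S) (t : ℝ) => w t * g ((p : ℂ × ℂ).1 + (cl t : ℂ) * ((p : ℂ × ℂ).2 - (p : ℂ × ℂ).1)))
    key 0 1).congr fun p => ?_
  refine intervalIntegral.integral_congr fun t ht => ?_
  rw [uIcc_of_le zero_le_one] at ht
  simp [cl, min_eq_right ht.2, max_eq_right ht.1]

theorem continuousOn_J1 : ContinuousOn (fun p : ℂ × ℂ => m.J1 p.1 p.2)
    (closedBall (0 : ℂ) 1 ×ˢ closedBall (0 : ℂ) 1) := by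
  simpa [J1] using m.continuousOn_segIntegral _ (fun _ => 1) continuous_const
    m.deriv_phi_diff.continuousOn

theorem continuousOn_J2 : ContinuousOn (fun p : ℂ × ℂ => m.J2 p.1 p.2)
    (closedBall (0 : ℂ) 1 ×ˢ closedBall (0 : ℂ) 1) :=
  m.continuousOn_segIntegral _ _ (by fun_prop) m.deriv2_phi_diff.continuousOn

theorem J1_comm {v u : ℂ} (hv : v ∈ ball (0 : ℂ) m.ρ) (hu : u ∈ ball (0 : ℂ) m.ρ) :
    m.J1 v u = m.J1 u v := by
  by_cases h : u = v
  · rw [h]
  · apply mul_left_cancel₀ (sub_ne_zero.2 h)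
    rw [m.sub_mul_J1 hv hu, ← neg_sub v u, neg_mul, m.sub_mul_J1 hu hv]
    ring

/-- The pairs of points at which the kernel is used. -/
def dom : Set (ℂ × ℂ) :=
  {p | ‖p.1‖ ≤ 1 ∧ ‖p.2‖ ≤ 1 ∧ (‖p.1‖ = 1 ∨ ‖p.2‖ = 1)}

theorem den_ne_of_dom {v u : ℂ} (h : (v, u) ∈ dom) : m.den v u ≠ 0 := by
  obtain ⟨hv, hu, h1 | h1⟩ := h
  · unfold den
    rw [m.J1_comm (m.mem_ball_of_le hv) (m.mem_ball_of_le hu), mul_comm v u]
    exact m.den_ne u v hu h1
  · exact m.den_ne v u hv h1

theorem continuousOn_G : ContinuousOn (fun p : ℂ × ℂ => m.G p.1 p.2) dom := by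
  have hsub : dom ⊆ closedBall (0 : ℂ) 1 ×ˢ closedBall (0 : ℂ) 1 := fun p hp =>
    ⟨mem_closedBall_zero_iff.2 hp.1, mem_closedBall_zero_iff.2 hp.2.1⟩
  have h1 := m.continuousOn_J1.mono hsub
  have h2 := m.continuousOn_J2.mono hsub
  unfold G den
  refine ContinuousOn.div ?_ ?_ fun p hp => m.den_ne_of_dom hp
  · exact ((continuous_snd.mul continuous_fst).continuousOn).mul
      (h1.add (continuous_fst.continuousOn.mul h2))
  · exact continuousOn_const.sub ((continuous_fst.mul continuous_snd).continuousOn.mul h1)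

theorem psi_sub {v u : ℂ} (hv : v ∈ ball (0 : ℂ) m.ρ) (hu : u ∈ ball (0 : ℂ) m.ρ)
    (hv0 : v ≠ 0) (hu0 : u ≠ 0) :
    m.psi v - m.psi u = (u - v) * m.den v u / (v * u) := by
  unfold psi den
  have h := m.sub_mul_J1 hv hu
  field_simp
  linear_combination (v * u) * h

theorem psi_ne {v u : ℂ} (h : (v, u) ∈ dom) (hv0 : v ≠ 0) (hu0 : u ≠ 0) (hne : u ≠ v) :
    m.psi v ≠ m.psi u := by
  intro he
  have := m.psi_sub (m.mem_ball_of_le h.1) (m.mem_ball_of_le h.2.1) hv0 hu0
  rw [he, sub_self] at this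
  exact div_ne_zero (mul_ne_zero (sub_ne_zero.2 hne) (m.den_ne_of_dom h))
    (mul_ne_zero hv0 hu0) this.symm

/-- The Cauchy kernel splits into the circle kernel and `G`. -/
theorem kernel_eq {v u : ℂ} (h : (v, u) ∈ dom) (hv0 : v ≠ 0) (hu0 : u ≠ 0) (hne : u ≠ v) :
    m.nrm v / (m.psi v - m.psi u) = u / (u - v) + m.G v u := by
  have hv := m.mem_ball_of_le h.1
  have hu := m.mem_ball_of_le h.2.1
  have hd := m.den_ne_of_dom h
  have h1 := m.sub_mul_J1 hv hu
  have h2 := m.sub_mul_J2 hv hu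
  have h3 : (u - v) * m.J2 v u = m.J1 v u - deriv m.phi v := by
    apply mul_left_cancel₀ (sub_ne_zero.2 hne)
    rw [h2, mul_sub, h1]
  have hne' := sub_ne_zero.2 hne
  rw [m.psi_sub hv hu hv0 hu0]
  unfold nrm G den at *
  rw [div_add_div _ _ hne' hd, div_div_eq_mul_div, div_eq_div_iff (mul_ne_zero hne' hd)
    (mul_ne_zero hne' hd)]
  field_simp
  linear_combination (-(v ^ 2)) * h3

theorem G_zero_left (u : ℂ) : m.G 0 u = 0 := by simp [G]

theorem G_zero_right (v : ℂ) : m.G v 0 = 0 := by simp [G]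

theorem differentiableAt_G_left {v u : ℂ} (hv : ‖v‖ < 1) (hu : ‖u‖ = 1) (hv0 : v ≠ 0) :
    DifferentiableAt ℂ (fun z => m.G z u) v := by
  have hu0 : u ≠ 0 := by rintro rfl; simp at hu
  have hne : u ≠ v := by rintro rfl; linarith
  have hd : ∀ᶠ z in 𝓝 v, ‖z‖ < 1 ∧ z ≠ 0 :=
    ((isOpen_lt continuous_norm continuous_const).eventually_mem hv).and (eventually_ne_nhds hv0)
  have hdom : (v, u) ∈ dom := ⟨hv.le, hu.le, Or.inr hu⟩
  have hphi := (m.hasDerivAt_phi (m.mem_ball_of_le hv.le)).differentiableAt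
  have hphi' := (m.hasDerivAt_deriv_phi (m.mem_ball_of_le hv.le)).differentiableAt
  have key : DifferentiableAt ℂ (fun z => m.nrm z / (m.psi z - m.psi u) - u / (u - z)) v := by
    refine DifferentiableAt.sub (DifferentiableAt.div ?_ ?_ ?_) (DifferentiableAt.div ?_ ?_ ?_)
    · unfold nrm; fun_prop (disch := exact hv0)
    · unfold psi; fun_prop (disch := exact hv0)
    · exact sub_ne_zero.2 (m.psi_ne hdom hv0 hu0 hne)
    · fun_prop
    · fun_prop
    · exact sub_ne_zero.2 hne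
  refine key.congr_of_eventuallyEq (hd.mono fun z hz => ?_)
  have hne' : u ≠ z := by rintro rfl; linarith [hz.1]
  simp [m.kernel_eq (u := u) ⟨hz.1.le, hu.le, Or.inr hu⟩ hz.2 hu0 hne']

theorem differentiableAt_G_right {v u : ℂ} (hv : ‖v‖ = 1) (hu : ‖u‖ < 1) (hu0 : u ≠ 0) :
    DifferentiableAt ℂ (fun z => m.G v z) u := by
  have hv0 : v ≠ 0 := by rintro rfl; simp at hv
  have hne : u ≠ v := by rintro rfl; linarith
  have hd : ∀ᶠ z in 𝓝 u, ‖z‖ < 1 ∧ z ≠ 0 :=
    ((isOpen_lt continuous_norm continuous_const).eventually_mem hu).and (eventually_ne_nhds hu0)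
  have hdom : (v, u) ∈ dom := ⟨hv.le, hu.le, Or.inl hv⟩
  have hphi := (m.hasDerivAt_phi (m.mem_ball_of_le hu.le)).differentiableAt
  have key : DifferentiableAt ℂ (fun z => m.nrm v / (m.psi v - m.psi z) - z / (z - v)) u := by
    refine DifferentiableAt.sub (DifferentiableAt.div ?_ ?_ ?_) (DifferentiableAt.div ?_ ?_ ?_)
    · fun_prop
    · unfold psi; fun_prop (disch := exact hu0)
    · exact sub_ne_zero.2 (m.psi_ne hdom hv0 hu0 hne)
    · fun_prop
    · fun_prop
    · exact sub_ne_zero.2 hne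
  refine key.congr_of_eventuallyEq (hd.mono fun z hz => ?_)
  have hne' : z ≠ v := by rintro rfl; linarith [hz.1]
  simp [m.kernel_eq (v := v) ⟨hv.le, hz.1.le, Or.inl hv⟩ hv0 hz.2 hne']

/-- `G(·, u)` times a holomorphic function has mean zero. -/
theorem av_G_left {g : ℂ → ℂ} (hc : ContinuousOn g (closedBall (0 : ℂ) 1))
    (hd : ∀ z ∈ ball (0 : ℂ) 1, DifferentiableAt ℂ g z) {u : ℂ} (hu : ‖u‖ = 1) :
    av (fun v => m.G v u * g v) = 0 := by
  have hG : ContinuousOn (fun v => m.G v u) (closedBall (0 : ℂ) 1) :=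
    m.continuousOn_G.comp (f := fun v => (v, u)) (by fun_prop)
      fun v hv => ⟨mem_closedBall_zero_iff.1 hv, hu.le, Or.inr hu⟩
  rw [av_holo (f := fun v => m.G v u * g v) (countable_singleton (0 : ℂ)) (hG.mul hc) fun z hz => ?_]
  · simp [G_zero_left]
  · exact (m.differentiableAt_G_left (mem_ball_zero_iff.1 hz.1) hu hz.2).mul (hd z hz.1)

/-- `G(v, ·)` times a holomorphic function has mean zero. -/
theorem av_G_right {g : ℂ → ℂ} (hc : ContinuousOn g (closedBall (0 : ℂ) 1))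
    (hd : ∀ z ∈ ball (0 : ℂ) 1, DifferentiableAt ℂ g z) {v : ℂ} (hv : ‖v‖ = 1) :
    av (fun u => m.G v u * g u) = 0 := by
  have hG : ContinuousOn (fun u => m.G v u) (closedBall (0 : ℂ) 1) :=
    m.continuousOn_G.comp (f := fun u => (v, u)) (by fun_prop)
      fun u hu => ⟨hv.le, mem_closedBall_zero_iff.1 hu, Or.inl hv⟩
  rw [av_holo (f := fun u => m.G v u * g u) (countable_singleton (0 : ℂ)) (hG.mul hc) fun z hz => ?_]
  · simp [G_zero_right]
  · exact (m.differentiableAt_G_right hv (mem_ball_zero_iff.1 hz.1) hz.2).mul (hd z hz.1)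

/-- The doubly stochastic kernel. -/
def ker (v u : ℂ) : ℝ := 1 + 2 * (m.G v u).re

theorem ker_nonneg {v u : ℂ} (hv : ‖v‖ = 1) (hu : ‖u‖ = 1) : 0 ≤ m.ker v u := by
  have hv0 : v ≠ 0 := by rintro rfl; simp at hv
  have main : ∀ z : ℂ, ‖z‖ = 1 → z ≠ v → 0 ≤ m.ker v z := by
    intro z hz hne
    have hz0 : z ≠ 0 := by rintro rfl; simp at hz
    have hk := m.kernel_eq ⟨hv.le, hz.le, Or.inl hv⟩ hv0 hz0 hne
    have h1 : 0 ≤ (m.nrm v / (m.psi v - m.psi z)).re := by
      have := m.convex_pos v z hv hz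
      rw [div_re]
      rw [← add_div]
      refine div_nonneg ?_ (normSq_nonneg _)
      unfold psi nrm
      simp only [mul_re, conj_re, conj_im] at this
      linarith
    have h2 : (z / (z - v)).re = 1 / 2 := by
      have hn : normSq (z - v) ≠ 0 := by simpa [sub_eq_zero] using hne
      have hz2 : z.re * z.re + z.im * z.im = 1 := by
        rw [← normSq_apply, ← Complex.sq_norm, hz, one_pow]
      have hv2 : v.re * v.re + v.im * v.im = 1 := by
        rw [← normSq_apply, ← Complex.sq_norm, hv, one_pow]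
      rw [div_re, ← add_div, div_eq_iff hn, normSq_apply]
      simp only [sub_re, sub_im]
      linear_combination (1 / 2) * hz2 - (1 / 2) * hv2
    rw [hk, add_re, h2] at h1
    unfold ker
    linarith
  by_cases hne : u = v
  · subst hne
    have hcont : ContinuousOn (fun z => m.ker u z) (sphere (0 : ℂ) 1) := by
      have := m.continuousOn_G.comp (f := fun z => (u, z)) (by fun_prop)
        fun z hz => (⟨hu.le, (mem_sphere_zero_iff_norm.1 hz).le, Or.inl hu⟩ : (u, z) ∈ dom)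
      exact continuousOn_const.add (continuousOn_const.mul
        (Complex.continuous_re.comp_continuousOn this))
    have hlim : Tendsto (fun θ : ℝ => m.ker u (u * circleMap 0 1 θ)) (𝓝[≠] 0)
        (𝓝 (m.ker u u)) := by
      have hc : Continuous fun θ : ℝ => m.ker u (u * circleMap 0 1 θ) :=
        hcont.comp_continuous (continuous_const.mul (continuous_circleMap 0 1)) fun θ => by
          simp [hu]
      simpa [circleMap] using (hc.tendsto 0).mono_left nhdsWithin_le_nhds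
    refine ge_of_tendsto hlim ?_
    have hev : ∀ᶠ θ : ℝ in 𝓝[≠] 0, θ ∈ Ioo (-1 : ℝ) 1 :=
      mem_nhdsWithin_of_mem_nhds (Ioo_mem_nhds (by norm_num) (by norm_num))
    filter_upwards [hev, self_mem_nhdsWithin] with θ hθ hθ0
    refine main _ (by simp [hu]) fun he => hθ0 ?_
    have : circleMap (0 : ℂ) 1 θ = circleMap 0 1 0 := by
      simpa [circleMap] using (mul_eq_left₀ hv0).1 he
    obtain ⟨n, hn⟩ := circleMap_eq_circleMap_iff (0 : ℂ) one_ne_zero |>.1 this
    have : (θ : ℝ) = n * (2 * Real.pi) := by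
      have := congrArg Complex.im hn
      simpa using this
    rcases lt_trichotomy n 0 with h | h | h
    · have : (n : ℝ) ≤ -1 := by exact_mod_cast Int.le_sub_one_of_lt h
      nlinarith [Real.pi_gt_three, hθ.1]
    · simpa [h] using this
    · have : (1 : ℝ) ≤ n := by exact_mod_cast h
      nlinarith [Real.pi_gt_three, hθ.2]
  · exact main u hu hne

end Model

end Vale.Agent.P123
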