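import Vale.Agent.Common.Brouwer

/-!
A continuous self-map of the simplex which preserves every face is onto the open simplex.
-/

noncomputable section

namespace Vale.Agent.P123

open Set

theorem exists_eq_of_face_preserving {N : ℕ} [NeZero N] (F : (Fin N → ℝ) → Fin N → ℝ)
    (hF : ContinuousOn F (stdSimplex ℝ (Fin N)))
    (hmaps : ∀ τ ∈ stdSimplex ℝ (Fin N), F τ ∈ stdSimplex ℝ (Fin N))
    (hface : ∀ τ ∈ stdSimplex ℝ (Fin N), ∀ k, τ k = 0 → F τ k = 0) (q : Fin N → ℝ)
    (hq : q ∈ stdSimplex ℝ (Fin N)) (hpos : ∀ k, 0 < q k) :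
    ∃ τ ∈ stdSimplex ℝ (Fin N), F τ = q := by
  set d : (Fin N → ℝ) → Fin N → ℝ := fun τ k => max 0 (q k - F τ k) with hd
  have hd0 : ∀ τ k, 0 ≤ d τ k := fun τ k => le_max_left _ _
  have hS : ∀ τ, 0 < 1 + ∑ k, d τ k := fun τ =>
    add_pos_of_pos_of_nonneg one_pos (Finset.sum_nonneg fun k _ => hd0 τ k)
  set g : (Fin N → ℝ) → Fin N → ℝ := fun τ k => (τ k + d τ k) / (1 + ∑ j, d τ j) with hg
  have hdc : ∀ k, ContinuousOn (fun τ => d τ k) (stdSimplex ℝ (Fin N)) := fun k =>
    continuousOn_const.sup (continuousOn_const.sub (continuousOn_pi.1 hF k))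
  have hgc : ContinuousOn g (stdSimplex ℝ (Fin N)) := continuousOn_pi.2 fun k =>
    ((continuous_apply k).continuousOn.add (hdc k)).div
      (continuousOn_const.add (continuousOn_finsetSum _ fun j _ => hdc j)) fun τ _ => (hS τ).ne'
  have hgmaps : MapsTo g (stdSimplex ℝ (Fin N)) (stdSimplex ℝ (Fin N)) := fun τ hτ =>
    ⟨fun k => div_nonneg (add_nonneg (hτ.1 k) (hd0 τ k)) (hS τ).le, by
      simp only [hg]
      rw [← Finset.sum_div, Finset.sum_add_distrib, hτ.2, div_self (hS τ).ne']⟩
  obtain ⟨τ, hτ, hfix⟩ := Common.Brouwer.exists_fixed (isCompact_stdSimplex ℝ (Fin N))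
    (convex_stdSimplex ℝ (Fin N)) ⟨q, hq⟩ hgc hgmaps
  refine ⟨τ, hτ, ?_⟩
  have hk : ∀ k, d τ k = τ k * ∑ j, d τ j := fun k => by
    have h := congrFun hfix k
    simp only [hg] at h
    rw [div_eq_iff (hS τ).ne'] at h
    linear_combination h
  have hle : ∀ k, q k ≤ F τ k := by
    rcases (Finset.sum_nonneg (s := Finset.univ) fun j _ => hd0 τ j).eq_or_lt with h | h
    · intro k
      have := hk k
      rw [← h, mul_zero] at this
      have := le_max_right 0 (q k - F τ k)
      simp only [hd] at *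
      linarith
    · exfalso
      have hτpos : ∀ k, 0 < τ k := fun k => by
        refine (hτ.1 k).lt_of_ne fun h0 => ?_
        have := hk k
        rw [← h0, zero_mul] at this
        simp only [hd, hface τ hτ k h0.symm, sub_zero, max_eq_right (hpos k).le] at this
        exact (hpos k).ne' this
      have hlt : ∀ k, F τ k < q k := fun k => by
        have h1 := (hk k).symm ▸ mul_pos (hτpos k) h
        simp only [hd, lt_max_iff, lt_self_iff_false, false_or, sub_pos] at h1
        exact h1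
      have := Finset.sum_lt_sum_of_nonempty (s := Finset.univ)
        ⟨(0 : Fin N), Finset.mem_univ _⟩ fun k _ => hlt k
      rw [hq.2, (hmaps τ hτ).2] at this
      exact lt_irrefl _ this
  funext k
  refine le_antisymm ?_ (hle k)
  by_contra h
  have := Finset.sum_lt_sum (fun j _ => hle j) ⟨k, Finset.mem_univ k, not_le.1 h⟩
  rw [hq.2, (hmaps τ hτ).2] at this
  exact lt_irrefl _ this

end Vale.Agent.P123
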